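import Vale.Agent.P301.H98.Fin3

/-! # The finite proportional pair in the form used by the effective argument -/

open scoped Manifold ContDiff ComplexOrder Topology
open Filter Metric Set

noncomputable section

namespace Vale.Agent.P301.H98

open Vale.Agent.P272.K Vale.Agent.P301.H599 Vale.Agent.P301.H724

variable {d : ℕ} {X : Type} [TopologicalSpace X] [ChartedSpace (Cm d) X] {ι : Type}

/-- More than `card A` nonzero sections of pairwise different weights: two nonzero proportional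
sections of an exterior power, of different weights, both at most the sum of the weights. -/
theorem exists_prop_two [ConnectedSpace X] {A : Type} [Fintype A] {L : LineBundle d X ι}
    {Λ : Chart d X → Chart d X → X → Matrix A A ℂ} {R : ℕ} (hR : Fintype.card A < R)
    {k : Fin R → ℕ} (hk : Function.Injective k) {v : Fin R → ι → Chart d X → Cm d → A → ℂ}
    (hv : ∀ j, IsSec L Λ (k j) (v j)) (hne : ∀ j, ∃ x, Nz L (v j) x) :
    ∃ (r : ℕ) (M₀ M₁ : ℕ) (W₀ W₁ : ι → Chart d X → Cm d → (Fin r → A) → ℂ),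
      1 ≤ r ∧ r < R ∧ M₁ < M₀ ∧ M₀ ≤ ∑ j, k j ∧ IsSec L (lamPow r Λ) M₀ W₀ ∧
      IsSec L (lamPow r Λ) M₁ W₁ ∧ (∃ x, Nz L W₀ x) ∧ (∃ x, Nz L W₁ x) ∧ Prop2 L W₀ W₁ := by
  obtain ⟨q, m₀, m₁, u₀, u₁, h1, h2, h3, h4, h5, h6, h7, h8, h9⟩ :=
    exists_prop_card hR hv hk hne
  exact ⟨q, _, _, _, _, h1, h2, h5, h6, isSec_wedge h3, isSec_wedge h4, h7, h8, h9⟩

end Vale.Agent.P301.H98
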