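import Vale.Agent.P301.H450.Special
import Vale.Agent.P301.H599.UB
import Vale.Agent.P301.H862.Space

/-! # The order of vanishing of a section of `L^b` is at most `C b` -/

open scoped Manifold ContDiff ComplexOrder Topology
open Filter Metric Set MeasureTheory

set_option linter.all false

noncomputable section

namespace Vale.Agent.P301.H98

open Vale.Agent.P272.K Vale.Agent.P272.K.QN Vale.Agent.P301.H599 Vale.Agent.P301.H450
open Vale.Agent.P301.H862 (powL powL_metric)

/-! ## The local estimate -/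

section Local

variable {d : ℕ}

/-- A function which is `O(|z - c|^q)` at the centre of a ball is at most `M (|z - c| / R)^q`. -/
theorem schwarz_isBigO {q : ℕ} {f : Cm d → ℂ} {c : Cm d} {R M : ℝ}
    (hf : ∀ z ∈ ball c R, AnalyticAt ℂ f z) (hM : ∀ z ∈ ball c R, ‖f z‖ ≤ M)
    (hO : f =O[𝓝 c] fun z => ‖z - c‖ ^ q) : ∀ z ∈ ball c R, ‖f z‖ ≤ M * (dist z c / R) ^ q := by
  intro z hz
  have hR : 0 < R := nonempty_ball.mp ⟨_, hz⟩
  rcases q with _ | q
  · simpa using hM z hz
  have hfc : f c = 0 := by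
    obtain ⟨K, hK⟩ := hO.bound
    have h1 := hK.self_of_nhds
    simp only [sub_self, norm_zero, ne_eq, Nat.succ_ne_zero, not_false_eq_true, zero_pow,
      mul_zero] at h1
    exact norm_le_zero_iff.1 h1
  have h5 : (fun w => f w - f c) =o[𝓝 c] fun w => ‖w - c‖ ^ q := by
    have h6 : (fun w => f w - f c) = f := by funext w; rw [hfc, sub_zero]
    rw [h6]
    refine hO.trans_isLittleO ?_
    have h7 : (fun w : Cm d => ‖w - c‖ ^ q * ‖w - c‖) =o[𝓝 c] fun w => ‖w - c‖ ^ q * 1 := by
      refine (Asymptotics.isBigO_refl _ _).mul_isLittleO ?_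
      rw [Asymptotics.isLittleO_one_iff]
      have : Tendsto (fun w : Cm d => ‖w - c‖) (𝓝 c) (𝓝 ‖c - c‖) :=
        (continuous_id.sub continuous_const).norm.tendsto c
      simpa using this
    simpa [pow_succ] using h7
  have h6 := Complex.dist_le_mul_div_pow_of_mapsTo_ball_of_isLittleO (R₂ := M)
    (fun w hw => (hf w hw).differentiableAt.differentiableWithinAt)
    (fun w hw => by
      rw [mem_closedBall, hfc, dist_zero_right]
      exact hM w hw) h5 hz
  rwa [hfc, dist_zero_right] at h6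

end Local

variable {d : ℕ} {X : Type} [TopologicalSpace X] [ChartedSpace (Cm d) X]
  [IsManifold 𝓘(ℂ, Cm d) ω X] {ι : Type} {L : LineBundle d X ι} {ρ : ι → X → ℝ}
  {w : Chart d X → Cm d → Matrix (Fin d) (Fin d) ℂ} {A : ℝ} {b : ℕ} {g : ι → X → ℂ}

lemma isSection_pow (hg : IsSecPow L b g) : IsSection (powL L b) g where
  holo := hg.holo
  change := hg.change

/-- `t (log (|g|² + δ) - log (S + δ))` -/
def vf (L : LineBundle d X ι) (ρ : ι → X → ℝ) (b : ℕ) (g : ι → X → ℂ) (δ t S : ℝ) (x : X) : ℝ :=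
  t * (ul (powL L b) (fun i x => b * ρ i x) g δ x - Real.log (S + δ))

theorem qpsh_vf (hρ : IsMetric L ρ) (hA : ∀ e x, At e x → (w e (e x)).PosSemidef)
    (hA0 : 0 ≤ A) (hcmp : ∀ e x, At e x → ((A : ℂ) • w e (e x) - curvature L ρ e (e x)).PosSemidef)
    (hg : IsSecPow L b g) {δ t S : ℝ} (hδ : 0 < δ) (ht : 0 ≤ t) (htb : t * b ≤ 1)
    (hS : ∀ x, nrm (powL L b) (fun i x => b * ρ i x) g x ≤ S) :
    QPsh w A (vf L ρ b g δ t S) := by
  have hm := powL_metric hρ b
  have hs := isSection_pow hg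
  have hsm : Smooth (d := d) (ul (powL L b) (fun i x => b * ρ i x) g δ) := smooth_ul hm hs hδ
  refine ⟨?_, fun e x hx => ?_, fun x => ?_⟩
  · exact (hsm.sub (Smooth.const _)).const_mul t
  · obtain ⟨i, hi⟩ := L.cover x
    have h1 : cHess (fun z => vf L ρ b g δ t S (e.symm z)) (e x) =
        (t : ℂ) • ddc (ul (powL L b) (fun i x => b * ρ i x) g δ) e (e x) := by
      have h3 := ddc_sub hsm (Smooth.const (Real.log (S + δ))) e x hx
      have h4 := ddc_const (X := X) (Real.log (S + δ)) e x hx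
      have h5 := ddc_const_mul t (hsm.sub (Smooth.const (Real.log (S + δ)))) e x hx
      simp only [] at h3 h4
      rw [h4, sub_zero] at h3
      rw [← h3]
      exact h5
    rw [h1, ddc_ul hm hs hδ hx (i := i) hi]
    have hn := nh_nonneg (fun z => g i (e.symm z)) (fun z => b * ρ i (e.symm z)) (e x)
    set N := nh (fun z => g i (e.symm z)) (fun z => b * ρ i (e.symm z)) (e x) with hN
    have hc : ddc (fun x => (b : ℝ) * ρ i x) e (e x) = (b : ℂ) • curvature L ρ e (e x) := by
      rw [curvature_eq hρ hx hi]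
      have := C2.cHess_const_mul (b : ℝ) ((hρ.smooth i e x hx hi).of_le (m := 2) (by norm_cast))
      simpa [ddc] using this
    rw [hc]
    have hP : (Pm (fun z => g i (e.symm z)) (fun z => b * ρ i (e.symm z)) δ (e x)).PosSemidef := by
      unfold Pm
      exact (Matrix.posSemidef_vecMulVec_self_star _).smul (by
        have := cf_nonneg (f := fun z => g i (e.symm z)) (ρ := fun z => b * ρ i (e.symm z)) hδ.le
          (e x)
        exact_mod_cast this)
    set lam : ℝ := t * (N / (N + δ)) * b with hlam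
    have hfr : N / (N + δ) ≤ 1 := by
      rw [div_le_one (by positivity)]; linarith
    have hfr0 : 0 ≤ N / (N + δ) := by positivity
    have hlam0 : 0 ≤ lam := by positivity
    have hlam1 : lam ≤ 1 := by
      calc lam = (t * b) * (N / (N + δ)) := by rw [hlam]; ring
        _ ≤ 1 * 1 := mul_le_mul htb hfr hfr0 zero_le_one
        _ = 1 := one_mul 1
    have hid : (t : ℂ) • (Pm (fun z => g i (e.symm z)) (fun z => b * ρ i (e.symm z)) δ (e x) -
          ((N / (N + δ) : ℝ) : ℂ) • (b : ℂ) • curvature L ρ e (e x)) + (A : ℂ) • w e (e x) =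
        (t : ℂ) • Pm (fun z => g i (e.symm z)) (fun z => b * ρ i (e.symm z)) δ (e x) +
          (lam : ℂ) • ((A : ℂ) • w e (e x) - curvature L ρ e (e x)) +
          (((1 - lam) * A : ℝ) : ℂ) • w e (e x) := by
      rw [hlam]
      ext j k
      simp only [Matrix.add_apply, Matrix.sub_apply, Matrix.smul_apply, smul_eq_mul]
      push_cast
      ring
    rw [hid]
    refine ((hP.smul (by exact_mod_cast ht)).add ((hcmp e x hx).smul (by exact_mod_cast hlam0))).add
      ((hA e x hx).smul ?_)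
    have : 0 ≤ (1 - lam) * A := mul_nonneg (by linarith) hA0
    exact_mod_cast this
  · have h1 : 0 ≤ nrm (powL L b) (fun i x => b * ρ i x) g x := nrm_nonneg x
    have h2 : ul (powL L b) (fun i x => b * ρ i x) g δ x ≤ Real.log (S + δ) :=
      Real.log_le_log (by positivity) (by have := hS x; linarith)
    exact mul_nonpos_of_nonneg_of_nonpos ht (by linarith)

/-! ## Change of frames and charts -/

/-- the section in another chart and another frame has the same order of vanishing -/
lemma isBigO_change (hg : IsSecPow L b g) {q : ℕ} {i j : ι} {e e' : Chart d X} {x : X}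
    (hx : At e x) (hx' : At e' x) (hi : x ∈ L.U i) (hj : x ∈ L.U j)
    (h : ∃ K, ∀ᶠ z in 𝓝 (e x), ‖g i (e.symm z)‖ ≤ K * ‖z - e x‖ ^ q) :
    (fun z => g j (e'.symm z)) =O[𝓝 (e' x)] fun z => ‖z - e' x‖ ^ q := by
  obtain ⟨K, hK⟩ := h
  have h1 : (fun z => g i (e.symm z)) =O[𝓝 (e x)] fun z => ‖z - e x‖ ^ q := by
    refine Asymptotics.IsBigO.of_bound K ?_
    filter_upwards [hK] with z hz
    rwa [Real.norm_of_nonneg (by positivity)]
  -- the change of charts
  set τ : Cm d → Cm d := fun z => e (e'.symm z) with hτ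
  have hτc : ContinuousAt τ (e' x) := by
    have h2 : ContinuousAt e'.symm (e' x) := e'.continuousAt_symm hx'.mem_target
    have h3 : ContinuousAt e (e'.symm (e' x)) := by
      rw [hx'.left_inv]; exact e.continuousAt hx.2
    exact h3.comp h2
  have hτx : τ (e' x) = e x := by rw [hτ]; simp only []; rw [hx'.left_inv]
  have hτd : DifferentiableAt ℂ τ (e' x) := transition_differentiableAt hx' hx
  have hτO : (fun z => τ z - e x) =O[𝓝 (e' x)] fun z => z - e' x := by
    have := hτd.isBigO_sub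
    rwa [hτx] at this
  have h2 : (fun z => g i (e.symm (τ z))) =O[𝓝 (e' x)] fun z => ‖τ z - e x‖ ^ q := by
    have h3 : Tendsto τ (𝓝 (e' x)) (𝓝 (e x)) := by
      have := hτc.tendsto; rwa [hτx] at this
    exact h1.comp_tendsto h3
  have h3 : (fun z => ‖τ z - e x‖ ^ q) =O[𝓝 (e' x)] fun z => ‖z - e' x‖ ^ q :=
    (hτO.norm_norm).pow q
  have h4 := h2.trans h3
  have h5 : (fun z => g j (e'.symm z)) =ᶠ[𝓝 (e' x)]
      fun z => (L.g j i (e'.symm z)) ^ b * g i (e.symm (τ z)) := by
    have h6 : ∀ᶠ z in 𝓝 (e' x), e'.symm z ∈ e.source := by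
      have hc : ContinuousAt e'.symm (e' x) := e'.continuousAt_symm hx'.mem_target
      refine hc.eventually (p := fun y => y ∈ e.source) ?_
      rw [hx'.left_inv]
      exact e.open_source.mem_nhds hx.2
    filter_upwards [ev_mem hx' hi, ev_mem hx' hj, h6] with z h7 h8 h9
    simp only [hτ]
    rw [e.left_inv h9]
    exact hg.change j i _ h8.2 h7.2
  have h6 : (fun z => (L.g j i (e'.symm z)) ^ b) =O[𝓝 (e' x)] fun _ => (1 : ℝ) :=
    ((L.holo j i e' x hx' hj hi).continuousAt.pow b).isBigO_one ℝ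
  have h7 := h6.mul h4
  simp only [one_mul] at h7
  exact h7.congr' h5.symm (Eventually.of_forall fun _ => rfl)

/-! ## The theorem -/

variable [T2Space X] [CompactSpace X] [ConnectedSpace X]

/-- the estimate on one chart ball -/
theorem exists_ord_loc (hw : IsKahler w) (hρ : IsMetric L ρ) (y : X) :
    ∃ (V : Set X) (C : ℝ), V ∈ 𝓝 y ∧ 0 ≤ C ∧ ∀ (b : ℕ) (g : ι → X → ℂ), IsSecPow L b g →
      (∃ i x, x ∈ L.U i ∧ g i x ≠ 0) → ∀ (t : ℝ), 0 ≤ t → t * b ≤ 1 → ∀ (q : ℕ), ∀ x ∈ V,
      ∀ (i : ι) (e : Chart d X), At e x → x ∈ L.U i →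
      (∃ K, ∀ᶠ z in 𝓝 (e x), ‖g i (e.symm z)‖ ≤ K * ‖z - e x‖ ^ q) →
      t * ((2 * q - 1) * Real.log 2) ≤ C := by
  obtain ⟨A, hA, hcmp⟩ := exists_comparison_form hw.toIsHermitian
    (rform_curvature hρ).closed.smooth (rform_curvature hρ).herm (rform_curvature hρ).closed.form
  have hy := atChart (d := d) y
  set e := chartAt (Cm d) y with he
  obtain ⟨j, hj⟩ := L.cover y
  -- the ball
  obtain ⟨R, hR, hball⟩ := Metric.nhds_basis_closedBall.mem_iff.1 (ev_mem hy hj)
  have hball' : ∀ z ∈ closedBall (e y) R, z ∈ e.target ∧ e.symm z ∈ L.U j := fun z hz => hball hz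
  have hcont : ContinuousOn (fun z => ρ j (e.symm z)) (closedBall (e y) R) := by
    intro z hz
    have h1 := hball' z hz
    have h2 : At e (e.symm z) := At.of_target hy.1 h1.1
    have h3 := (hρ.smooth j e _ h2 h1.2).continuousAt
    rw [e.right_inv h1.1] at h3
    exact h3.continuousWithinAt
  obtain ⟨K, hK⟩ := (isCompact_closedBall (e y) R).exists_bound_of_continuousOn hcont
  have hK0 : 0 ≤ K := (norm_nonneg _).trans (hK (e y) (mem_closedBall_self hR.le))
  set U : Set X := e.source ∩ e ⁻¹' ball (e y) (R / 8) with hU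
  have hUo : IsOpen U := e.isOpen_inter_preimage isOpen_ball
  have hyU : y ∈ U := ⟨hy.2, mem_ball_self (by positivity)⟩
  obtain ⟨M, hM⟩ := exists_lower_point (subMean d) hw.toIsHermitian hA.le hUo ⟨y, hyU⟩ 0
  refine ⟨U, |M| + 2 * K, hUo.mem_nhds hyU, by positivity, ?_⟩
  intro b g hg hne t ht htb q x hxU i e' hx' hi hO
  have hm := powL_metric hρ b
  have hs := isSection_pow hg
  have hx : At e x := ⟨hy.1, hxU.1⟩
  have hxb : e x ∈ closedBall (e y) R :=
    (ball_subset_closedBall.trans (closedBall_subset_closedBall (by linarith))) hxU.2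
  have hxj : x ∈ L.U j := by
    have := (hball' _ hxb).2
    rwa [e.left_inv hxU.1] at this
  have hO' := isBigO_change hg hx' hx hi hxj hO
  -- the maximum
  set nn : X → ℝ := nrm (powL L b) (fun i x => b * ρ i x) g with hnn
  have hnc : Continuous nn := by
    have h1 : nn = fun x => Real.exp (ul (powL L b) (fun i x => b * ρ i x) g 1 x) - 1 := by
      funext x
      have h2 : 0 ≤ nn x := nrm_nonneg x
      show nn x = Real.exp (Real.log (nn x + 1)) - 1
      rw [Real.exp_log (by positivity)]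
      ring
    rw [h1]
    have h3 : Continuous (ul (powL L b) (fun i x => b * ρ i x) g 1) :=
      INT.SmoothFn.continuous (smooth_ul hm hs one_pos)
    exact (Real.continuous_exp.comp h3).sub continuous_const
  obtain ⟨p, -, hp⟩ := isCompact_univ.exists_isMaxOn (⟨x, trivial⟩ : (univ : Set X).Nonempty)
    hnc.continuousOn
  have hp' : ∀ y, nn y ≤ nn p := fun y => hp (mem_univ y)
  have hS : 0 < nn p := by
    obtain ⟨i₀, x₀, hx₀, hg₀⟩ := hne
    refine lt_of_lt_of_le ?_ (hp' x₀)
    rw [hnn, nrm_eq hm hs (i := i₀) hx₀]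
    positivity
  set S := nn p with hSdef
  set c := e x with hc
  have hRb : ball c (R / 2) ⊆ closedBall (e y) R := by
    intro z hz
    have h1 : dist z c < R / 2 := hz
    have h2 : dist c (e y) < R / 8 := hxU.2
    have := dist_triangle z c (e y)
    rw [mem_closedBall]; linarith
  -- the bound for the section
  have hval : ∀ z ∈ closedBall (e y) R, nn (e.symm z) =
      ‖g j (e.symm z)‖ ^ 2 * Real.exp (-(b * ρ j (e.symm z))) := fun z hz =>
    nrm_eq hm hs (i := j) (hball' z hz).2
  have hρb : ∀ z ∈ closedBall (e y) R, |(b : ℝ) * ρ j (e.symm z)| ≤ b * K := by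
    intro z hz
    rw [abs_mul, Nat.abs_cast]
    exact mul_le_mul_of_nonneg_left (hK z hz) (by positivity)
  have hgM : ∀ z ∈ ball c (R / 2), ‖g j (e.symm z)‖ ≤ Real.sqrt (S * Real.exp (b * K)) := by
    intro z hz
    have hz' := hRb hz
    refine Real.le_sqrt_of_sq_le ?_
    have h1 : ‖g j (e.symm z)‖ ^ 2 * Real.exp (-(b * ρ j (e.symm z))) ≤ S := by
      rw [← hval z hz']; exact hp' _
    have h2 : Real.exp ((b : ℝ) * ρ j (e.symm z)) ≤ Real.exp (b * K) :=
      Real.exp_le_exp.2 ((le_abs_self _).trans (hρb z hz'))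
    calc ‖g j (e.symm z)‖ ^ 2 = ‖g j (e.symm z)‖ ^ 2 * Real.exp (-(b * ρ j (e.symm z))) *
          Real.exp ((b : ℝ) * ρ j (e.symm z)) := by
          rw [mul_assoc, ← Real.exp_add, neg_add_cancel, Real.exp_zero, mul_one]
      _ ≤ S * Real.exp (b * K) := mul_le_mul h1 h2 (Real.exp_pos _).le hS.le
  have hgan : ∀ z ∈ ball c (R / 2), AnalyticAt ℂ (fun z => g j (e.symm z)) z := by
    intro z hz
    have h1 := hball' z (hRb hz)
    have h2 : At e (e.symm z) := At.of_target hy.1 h1.1
    have h3 := hg.holo j e _ h2 h1.2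
    rwa [e.right_inv h1.1] at h3
  have hsch := schwarz_isBigO hgan hgM hO'
  -- the point of `U`
  set δ : ℝ := S * Real.exp (2 * (b * K)) * (1 / 4) ^ q with hδ
  have hδ0 : 0 < δ := by positivity
  have hqp := qpsh_vf hρ (fun e x h => (hw.posDef e x h).posSemidef) hA.le hcmp hg (S := S) hδ0 ht
    htb hp'
  obtain ⟨r, hrU, hr⟩ := hM _ hqp ⟨p, by
    show -0 ≤ t * (Real.log (nn p + δ) - Real.log (S + δ))
    rw [← hSdef, sub_self, mul_zero, neg_zero]⟩
  have hr1 : e r ∈ ball c (R / 4) := by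
    have h1 : dist (e r) (e y) < R / 8 := hrU.2
    have h2 : dist c (e y) < R / 8 := hxU.2
    have := dist_triangle_right (e r) c (e y)
    rw [mem_ball]; linarith
  have hr2 : e r ∈ ball c (R / 2) := ball_subset_ball (by linarith) hr1
  have hr3 := hRb hr2
  have hnr : nn r ≤ δ := by
    have h1 := hval (e r) hr3
    rw [e.left_inv hrU.1] at h1
    have h2 := hsch (e r) hr2
    rw [e.left_inv hrU.1] at h2
    have h3 : dist (e r) c / (R / 2) ≤ 1 / 2 := by
      rw [div_le_iff₀ (by positivity)]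
      have : dist (e r) c < R / 4 := hr1
      linarith
    have h4 : (dist (e r) c / (R / 2)) ^ q ≤ (1 / 2) ^ q :=
      pow_le_pow_left₀ (by positivity) h3 q
    have h5 : ‖g j r‖ ≤ Real.sqrt (S * Real.exp (b * K)) * (1 / 2) ^ q :=
      h2.trans (mul_le_mul_of_nonneg_left h4 (Real.sqrt_nonneg _))
    have h6 : ‖g j r‖ ^ 2 ≤ S * Real.exp (b * K) * (1 / 4) ^ q := by
      calc ‖g j r‖ ^ 2 ≤ (Real.sqrt (S * Real.exp (b * K)) * (1 / 2) ^ q) ^ 2 :=
            pow_le_pow_left₀ (norm_nonneg _) h5 2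
        _ = (Real.sqrt (S * Real.exp (b * K))) ^ 2 * ((1 / 2) ^ 2) ^ q := by
            rw [mul_pow, ← pow_mul, ← pow_mul, mul_comm q 2]
        _ = _ := by
            rw [Real.sq_sqrt (by positivity)]
            norm_num
    have h7 : Real.exp (-((b : ℝ) * ρ j r)) ≤ Real.exp (b * K) := by
      refine Real.exp_le_exp.2 ((neg_le_abs _).trans ?_)
      have := hρb (e r) hr3
      rwa [e.left_inv hrU.1] at this
    rw [h1, hδ]
    calc ‖g j r‖ ^ 2 * Real.exp (-((b : ℝ) * ρ j r)) ≤
          (S * Real.exp (b * K) * (1 / 4) ^ q) * Real.exp (b * K) :=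
          mul_le_mul h6 h7 (Real.exp_pos _).le (by positivity)
      _ = S * Real.exp (2 * (b * K)) * (1 / 4) ^ q := by
          rw [two_mul, Real.exp_add]; ring
  -- the conclusion
  have h1 : -M ≤ t * (Real.log (nn r + δ) - Real.log (S + δ)) := hr
  have h2 : Real.log (nn r + δ) ≤ Real.log (2 * δ) := by
    refine Real.log_le_log ?_ (by linarith)
    have : 0 ≤ nn r := nrm_nonneg r
    positivity
  have h3 : Real.log S ≤ Real.log (S + δ) := Real.log_le_log hS (by linarith)
  have h4 : Real.log (2 * δ) = Real.log 2 + (Real.log S + 2 * (b * K) - q * (2 * Real.log 2)) := by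
    have h5 : Real.log (1 / 4 : ℝ) = -(2 * Real.log 2) := by
      rw [one_div, Real.log_inv, show (4 : ℝ) = 2 ^ 2 by norm_num, Real.log_pow]
      norm_num
    rw [Real.log_mul (by norm_num) hδ0.ne', hδ, Real.log_mul (by positivity) (by positivity),
      Real.log_mul hS.ne' (by positivity), Real.log_exp, Real.log_pow, h5]
    ring
  have h5 : t * (Real.log (nn r + δ) - Real.log (S + δ)) ≤
      t * (Real.log 2 + 2 * (b * K) - q * (2 * Real.log 2)) := by
    refine mul_le_mul_of_nonneg_left ?_ ht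
    linarith
  have h6 : t * (2 * (b * K)) ≤ 2 * K := by
    calc t * (2 * (b * K)) = (t * b) * (2 * K) := by ring
      _ ≤ 1 * (2 * K) := mul_le_mul_of_nonneg_right htb (by positivity)
      _ = 2 * K := one_mul _
  have h7 := neg_abs_le M
  have h8 := le_abs_self M
  nlinarith

/-- **The order of vanishing of a nonzero section of `L^b` is at most `C b`.** -/
theorem exists_ord (hw : IsKahler w) (hρ : IsMetric L ρ) :
    ∃ C : ℝ, ∀ (b : ℕ) (g : ι → X → ℂ), IsSecPow L b g → (∃ i x, x ∈ L.U i ∧ g i x ≠ 0) →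
      ∀ (q : ℕ) (i : ι) (e : Chart d X) (x : X), At e x → x ∈ L.U i →
      (∃ K, ∀ᶠ z in 𝓝 (e x), ‖g i (e.symm z)‖ ≤ K * ‖z - e x‖ ^ q) → (q : ℝ) ≤ C * b := by
  choose V C hV hC h using fun y => exists_ord_loc hw hρ y
  obtain ⟨t, ht⟩ := CompactSpace.elim_nhds_subcover V hV
  have hl2 : 0 < Real.log 2 := Real.log_pos one_lt_two
  refine ⟨(∑ y ∈ t, C y) / Real.log 2, fun b g hg hne q i e x hx hi hO => ?_⟩
  have hxt : x ∈ ⋃ y ∈ t, V y := by rw [ht]; trivial
  simp only [mem_iUnion] at hxt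
  obtain ⟨y, hyt, hxy⟩ := hxt
  have hCy : C y ≤ ∑ y ∈ t, C y := Finset.single_le_sum (f := C) (fun y _ => hC y) hyt
  rcases Nat.eq_zero_or_pos q with rfl | hq
  · have : 0 ≤ (∑ y ∈ t, C y) / Real.log 2 * b :=
      mul_nonneg (div_nonneg (Finset.sum_nonneg fun y _ => hC y) hl2.le) (by positivity)
    simpa using this
  have hq1 : (1 : ℝ) ≤ q := by exact_mod_cast hq
  have key := fun t ht htb => h y b g hg hne t ht htb q x hxy i e hx hi hO
  rcases Nat.eq_zero_or_pos b with rfl | hb
  · exfalso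
    have h1 := key ((C y + 1) / Real.log 2) (div_nonneg (by linarith [hC y]) hl2.le) (by simp)
    have h2 : (C y + 1) / Real.log 2 * ((2 * q - 1) * Real.log 2) =
        (C y + 1) * (2 * q - 1) := by field_simp
    rw [h2] at h1
    have := hC y
    nlinarith
  · have hb0 : (0 : ℝ) < b := by exact_mod_cast hb
    have h1 := key (1 / b) (by positivity) (by rw [one_div, inv_mul_cancel₀ hb0.ne'])
    have h2 : (2 * q - 1) * Real.log 2 ≤ C y * b := by
      rw [one_div, inv_mul_le_iff₀ hb0] at h1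
      linarith
    rw [div_mul_eq_mul_div, le_div_iff₀ hl2]
    calc (q : ℝ) * Real.log 2 ≤ (2 * q - 1) * Real.log 2 :=
          mul_le_mul_of_nonneg_right (by linarith) hl2.le
      _ ≤ C y * b := h2
      _ ≤ (∑ y ∈ t, C y) * b := mul_le_mul_of_nonneg_right hCy hb0.le

end Vale.Agent.P301.H98
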