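import Vale.Agent.P301.H98.Cop
import Mathlib.Analysis.InnerProductSpace.Positive

/-! The pairing of an effective divisor with a nef class is nonnegative. -/

open scoped Manifold ContDiff ComplexOrder ComplexConjugate Topology ENNReal
open MeasureTheory Set Filter Metric

noncomputable section

namespace Vale.Agent.P301.H98

open Vale.Agent.P272.K Vale.Agent.P301.H599

variable {d : ℕ} {X : Type} [TopologicalSpace X] [T2Space X] [CompactSpace X]
  [ChartedSpace (Cm d) X] [IsManifold 𝓘(ℂ, Cm d) ω X]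

variable {q : Chart d X → Cm d → Matrix (Fin d) (Fin d) ℂ → Matrix (Fin d) (Fin d) ℂ → ℝ}

lemma Pairing.sum_right (hq : Pairing q) {κ : Type*} (t : Finset κ) (e : Chart d X) (z : Cm d)
    (A : Matrix (Fin d) (Fin d) ℂ) (B : κ → Matrix (Fin d) (Fin d) ℂ) :
    q e z A (∑ k ∈ t, B k) = ∑ k ∈ t, q e z A (B k) := by
  classical
  induction t using Finset.induction_on with
  | empty =>
    have := hq.smul_right e z 0 A 0
    simpa using this
  | insert a s ha ih => rw [Finset.sum_insert ha, Finset.sum_insert ha, hq.add_right, ih]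

lemma Pairing.sum_left (hq : Pairing q) {κ : Type*} (t : Finset κ) (e : Chart d X) (z : Cm d)
    (A : κ → Matrix (Fin d) (Fin d) ℂ) (B : Matrix (Fin d) (Fin d) ℂ) :
    q e z (∑ k ∈ t, A k) B = ∑ k ∈ t, q e z (A k) B := by
  classical
  induction t using Finset.induction_on with
  | empty =>
    have := hq.smul_left e z 0 0 B
    simpa using this
  | insert a s ha ih => rw [Finset.sum_insert ha, Finset.sum_insert ha, hq.add_left, ih]

/-- a positive semidefinite matrix is a sum of rank one ones -/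
lemma psd_eq_sum {A : Matrix (Fin d) (Fin d) ℂ} (hA : A.PosSemidef) :
    ∃ (m : ℕ) (u : Fin m → Cm d), A = ∑ k, Matrix.vecMulVec (u k) (star (u k)) := by
  obtain ⟨m, u, hu⟩ := Matrix.posSemidef_iff_eq_sum_vecMulVec.1 hA
  exact ⟨m, u, hu⟩

lemma Pairing.nonneg (hq : Pairing q) {e : Chart d X} {x : X} (hx : At e x)
    {A B : Matrix (Fin d) (Fin d) ℂ} (hA : A.PosSemidef) (hB : B.PosSemidef) :
    0 ≤ q e (e x) A B := by
  obtain ⟨_, u, rfl⟩ := psd_eq_sum hA
  obtain ⟨_, v, rfl⟩ := psd_eq_sum hB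
  rw [hq.sum_left]
  refine Finset.sum_nonneg fun k _ => ?_
  rw [hq.sum_right]
  exact Finset.sum_nonneg fun l _ => hq.pos e x hx _ _

omit [T2Space X] [CompactSpace X] [IsManifold 𝓘(ℂ, Cm d) ω X] in
lemma Pm_psd {f : Cm d → ℂ} {ρ : Cm d → ℝ} {δ : ℝ} (hδ : 0 ≤ δ) (z : Cm d) :
    (Pm f ρ δ z).PosSemidef := by
  unfold Pm
  have h1 : (Matrix.vecMulVec (Dc f ρ z) (star (Dc f ρ z))).PosSemidef :=
    Matrix.posSemidef_vecMulVec_self_star _
  have h2 : (0:ℂ) ≤ ((cf f ρ δ z : ℝ) : ℂ) := by
    exact_mod_cast cf_nonneg (f := f) (ρ := ρ) hδ z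
  exact h1.smul h2

variable {ι : Type} {L : LineBundle d X ι} {ρ : ι → X → ℝ} {s : ι → X → ℂ}

variable (L s) in
/-- `s` is nowhere locally zero -/
def NLZ : Prop := ∀ (e : Chart d X) x, At e x → ∃ i, x ∈ L.U i ∧
  ¬ ∀ᶠ z in 𝓝 (e x), s i (e.symm z) = 0

omit [T2Space X] [CompactSpace X] [IsManifold 𝓘(ℂ, Cm d) ω X] in
lemma continuousOn_GA (hρ : IsMetric L ρ) (hs : IsSection L s) {δ : ℝ} (hδ : 0 < δ)
    {e : Chart d X} (he : e ∈ atlas (Cm d) X) :
    ContinuousOn (fun z => GA L ρ s δ (e.symm z)) e.target := by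
  intro z hz
  have hx : At e (e.symm z) := At.of_target he hz
  obtain ⟨i, hi⟩ := L.cover (e.symm z)
  have h1 := ev_mem hx hi
  have a1 := hs.holo i e _ hx hi
  have a3 := hρ.smooth i e _ hx hi
  rw [e.right_inv hz] at h1 a1 a3
  refine ContinuousAt.continuousWithinAt ?_
  refine (continuousAt_al (ρ := fun z => ρ i (e.symm z)) a1 a3 hδ).congr ?_
  filter_upwards [h1] with y hy
  exact (GA_eq hρ hs hy.2).symm

omit [T2Space X] [CompactSpace X] [IsManifold 𝓘(ℂ, Cm d) ω X] in
lemma small_GA (hρ : IsMetric L ρ) (hs : IsSection L s) (hn : NLZ L s) {e : Chart d X}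
    (he : e ∈ atlas (Cm d) X) {K : Set (Cm d)} (hK : IsCompact K) (hKe : K ⊆ e.target) :
    Tendsto (fun δ => ∫ z in K, GA L ρ s δ (e.symm z)) (𝓝[>] 0) (𝓝 0) := by
  -- `s ≠ 0` almost everywhere
  have hloc : ∀ a ∈ K, ∃ R > 0, ∀ᵐ z ∂(volume.restrict (ball a R)), 0 < nrm L ρ s (e.symm z) := by
    intro a ha
    have hat := hKe ha
    have hx : At e (e.symm a) := At.of_target he hat
    obtain ⟨i, hi, h0⟩ := hn e _ hx
    have h1 := ev_mem hx hi
    have a1 := hs.holo i e _ hx hi
    rw [e.right_inv hat] at h1 a1 h0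
    obtain ⟨R, hR, -, hne⟩ := exists_log_integrable a1 h0
    obtain ⟨R', hR', hb⟩ := Metric.eventually_nhds_iff_ball.1 h1
    refine ⟨min R R', lt_min hR hR', ?_⟩
    filter_upwards [ae_restrict_of_ae_restrict_of_subset (ball_subset_ball (min_le_left R R')) hne,
      self_mem_ae_restrict measurableSet_ball] with z h2 h3
    rw [nrm_symm hρ hs (hb z (ball_subset_ball (min_le_right R R') h3)).2]
    exact nh_pos h2
  choose! R hR hRn using hloc
  obtain ⟨t, htK, hcov⟩ := hK.elim_nhds_subcover (fun a => ball a (R a))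
    fun a ha => ball_mem_nhds a (hR a ha)
  have hae : ∀ᵐ z ∂(volume.restrict K), 0 < nrm L ρ s (e.symm z) := by
    refine ae_restrict_of_ae_restrict_of_subset hcov ?_
    rw [ae_restrict_biUnion_finset_iff]
    exact fun a ha => hRn a (htK a ha)
  have ht : Tendsto (fun δ => ∫ z in K, GA L ρ s δ (e.symm z)) (𝓝[>] 0)
      (𝓝 (∫ z in K, (0:ℝ))) := by
    refine tendsto_integral_filter_of_dominated_convergence (fun _ => (1:ℝ)) ?_ ?_ ?_ ?_
    · filter_upwards [self_mem_nhdsWithin] with δ hδ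
      exact ((continuousOn_GA hρ hs hδ he).mono hKe).aestronglyMeasurable hK.measurableSet
    · filter_upwards [self_mem_nhdsWithin] with δ hδ
      refine Eventually.of_forall fun z => ?_
      have hδ0 : 0 < δ := hδ
      have h1 := nrm_nonneg (L := L) (ρ := ρ) (s := s) (e.symm z)
      unfold GA
      rw [Real.norm_eq_abs, abs_of_nonneg (by positivity), div_le_one (by linarith)]
      linarith
    · exact integrableOn_const hK.measure_lt_top.ne
    · filter_upwards [hae] with z hz
      have h1 : Tendsto (fun δ : ℝ => δ / (nrm L ρ s (e.symm z) + δ)) (𝓝 0)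
          (𝓝 (0 / (nrm L ρ s (e.symm z) + 0))) :=
        tendsto_id.div (tendsto_const_nhds.add tendsto_id) (by simpa using hz.ne')
      rw [zero_div] at h1
      exact h1.mono_left nhdsWithin_le_nhds
  rwa [integral_zero] at ht

omit [T2Space X] [CompactSpace X] [IsManifold 𝓘(ℂ, Cm d) ω X] in
lemma bound_form {b : Chart d X → Cm d → Matrix (Fin d) (Fin d) ℂ} (hb : RForm b)
    {e : Chart d X} (he : e ∈ atlas (Cm d) X) {K : Set (Cm d)} (hK : IsCompact K)
    (hKe : K ⊆ e.target) :
    ∃ C : ℝ, 0 ≤ C ∧ ∀ z ∈ K, ∑ i, ∑ j, ‖b e z i j‖ ≤ C := by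
  have hc : ContinuousOn (fun z => ∑ i, ∑ j, ‖b e z i j‖) K := by
    intro z hz
    have hx : At e (e.symm z) := At.of_target he (hKe hz)
    refine ContinuousAt.continuousWithinAt ?_
    refine tendsto_finsetSum _ fun i _ => tendsto_finsetSum _ fun j _ => ?_
    have := (hb.closed.smooth e _ hx i j).continuousAt
    rw [e.right_inv (hKe hz)] at this
    exact this.norm
  obtain ⟨C, hC⟩ := hK.exists_bound_of_continuousOn hc
  refine ⟨|C|, abs_nonneg _, fun z hz => ?_⟩
  have := hC z hz
  rw [Real.norm_eq_abs] at this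
  exact (le_abs_self _).trans (this.trans (le_abs_self _))

/-- **EFF**: an effective divisor pairs nonnegatively with a semipositive form -/
theorem eff (hq : Pairing q) (hρ : IsMetric L ρ) (hs : IsSection L s) (hn : NLZ L s)
    {b : Chart d X → Cm d → Matrix (Fin d) (Fin d) ℂ} (hb : RForm b)
    (hbp : ∀ e x, At e x → (b e (e x)).PosSemidef) :
    0 ≤ INT.intX (fun e z => q e z (curvature L ρ e z) (b e z)) := by
  set I := INT.intX (fun e z => q e z (curvature L ρ e z) (b e z)) with hI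
  have hsame : ∀ δ, 0 < δ → INT.intX (fun e z => q e z (Tf L ρ s δ e z) (b e z)) = I :=
    fun δ hδ => hq.stokes_left (curvature L ρ) b (ul L ρ s δ) (rform_curvature hρ) hb
      (smooth_ul hρ hs hδ)
  set P := INT.part d X with hP
  set K : Fin P.N → Set (Cm d) := fun m => P.e m '' tsupport (P.ρ m) with hKdef
  have hKc : ∀ m, IsCompact (K m) := fun m =>
    (isClosed_tsupport _).isCompact.image_of_continuousOn
      ((P.e m).continuousOn.mono (P.supp m))
  have hKt : ∀ m, K m ⊆ (P.e m).target := by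
    rintro m _ ⟨x, hx, rfl⟩
    exact (P.e m).map_source (P.supp m hx)
  have hρ1 : ∀ m x, P.ρ m x ≤ 1 := by
    intro m x
    have := P.sum x
    rw [← this]
    exact Finset.single_le_sum (fun j _ => P.nonneg j x) (Finset.mem_univ m)
  have hlow : ∀ m, ∃ C : ℝ, 0 ≤ C ∧ ∀ δ, 0 < δ → ∀ z ∈ K m,
      -(C * GA L ρ s δ ((P.e m).symm z)) ≤ q (P.e m) z (Tf L ρ s δ (P.e m) z) (b (P.e m) z) := by
    intro m
    obtain ⟨Cq, hCq0, hCq⟩ := hq.bound (P.e m) (P.mem m) (K m) (hKc m) (hKt m)
    obtain ⟨C1, hC10, hC1⟩ := bound_form (rform_curvature hρ) (P.mem m) (hKc m) (hKt m)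
    obtain ⟨C2, hC20, hC2⟩ := bound_form hb (P.mem m) (hKc m) (hKt m)
    refine ⟨Cq * C1 * C2, by positivity, fun δ hδ z hz => ?_⟩
    have hzt := hKt m hz
    have hx : At (P.e m) ((P.e m).symm z) := At.of_target (P.mem m) hzt
    obtain ⟨i, hi⟩ := L.cover ((P.e m).symm z)
    have t1 := Tf_eq hρ hs hδ hx hi
    have c1 := curvature_eq hρ hx hi
    have p0 := hq.nonneg hx (Pm_psd (f := fun z => s i ((P.e m).symm z))
      (ρ := fun z => ρ i ((P.e m).symm z)) hδ.le ((P.e m) ((P.e m).symm z))) (hbp _ _ hx)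
    rw [(P.e m).right_inv hzt] at t1 c1 p0
    have b1 := hC1 z hz
    have b2 := hC2 z hz
    rw [c1] at b1
    unfold ddc at b1
    rw [GA_eq hρ hs hi, t1, hq.add_left, hq.smul_left]
    have m1 := al_nonneg (f := fun z => s i ((P.e m).symm z))
      (ρ := fun z => ρ i ((P.e m).symm z)) hδ.le z
    have h1 := (abs_le.1 (hCq z hz (cHess (fun z => ρ i ((P.e m).symm z)) z) (b (P.e m) z))).1
    have h2 : Cq * (∑ p, ∑ r, ‖cHess (fun z => ρ i ((P.e m).symm z)) z p r‖) *
        ∑ p, ∑ r, ‖b (P.e m) z p r‖ ≤ Cq * C1 * C2 := by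
      have hBn : 0 ≤ ∑ p, ∑ r, ‖b (P.e m) z p r‖ :=
        Finset.sum_nonneg fun _ _ => Finset.sum_nonneg fun _ _ => norm_nonneg _
      gcongr
    have h3 : -(Cq * C1 * C2) ≤ q (P.e m) z (cHess (fun z => ρ i ((P.e m).symm z)) z)
        (b (P.e m) z) := by linarith
    have h4 := mul_le_mul_of_nonneg_left h3 m1
    linarith
  choose C hC0 hC using hlow
  have hint : ∀ δ, 0 < δ → -(∑ m, C m * ∫ z in K m, GA L ρ s δ ((P.e m).symm z)) ≤ I := by
    intro δ hδ
    rw [← hsame δ hδ, ← Finset.sum_neg_distrib]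
    have hD := hq.dens _ _ (rform_Tf hρ hs hδ) hb
    unfold INT.intX
    rw [← hP]
    refine Finset.sum_le_sum fun m _ => ?_
    have hcont := continuousOn_GA hρ hs hδ (P.mem m)
    have hiK : IntegrableOn (fun z => GA L ρ s δ ((P.e m).symm z)) (K m) :=
      (hcont.mono (hKt m)).integrableOn_compact (hKc m)
    have hmK := (hKc m).measurableSet
    have e1 : -(C m * ∫ z in K m, GA L ρ s δ ((P.e m).symm z)) =
        ∫ z in (P.e m).target, (K m).indicator
          (fun z => -(C m * GA L ρ s δ ((P.e m).symm z))) z := by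
      rw [setIntegral_indicator hmK, inter_eq_self_of_subset_right (hKt m), integral_neg,
        integral_const_mul]
    rw [e1]
    refine setIntegral_mono_on ?_ (INT.integrableOn_part P hD m)
      (P.e m).open_target.measurableSet fun z hz => ?_
    · refine Integrable.integrableOn ?_
      exact (integrable_indicator_iff hmK).2 (hiK.const_mul (C m)).neg
    · by_cases hzK : z ∈ K m
      · rw [indicator_of_mem hzK]
        have h1 := hC m δ hδ z hzK
        have h2 := P.nonneg m ((P.e m).symm z)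
        have h3 := hρ1 m ((P.e m).symm z)
        have h4 : 0 ≤ GA L ρ s δ ((P.e m).symm z) := by
          have := nrm_nonneg (L := L) (ρ := ρ) (s := s) ((P.e m).symm z)
          unfold GA; positivity
        have h5 := mul_nonneg (hC0 m) h4
        have h6 := mul_le_mul_of_nonneg_left h1 h2
        nlinarith
      · rw [indicator_of_notMem hzK]
        have h1 : P.ρ m ((P.e m).symm z) = 0 := by
          by_contra hne
          exact hzK ⟨(P.e m).symm z, subset_tsupport _ hne, (P.e m).right_inv hz⟩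
        rw [h1, zero_mul]
  have hlim : Tendsto (fun δ => -(∑ m, C m * ∫ z in K m, GA L ρ s δ ((P.e m).symm z)))
      (𝓝[>] 0) (𝓝 (-(∑ m, C m * 0))) :=
    (tendsto_finsetSum _ fun m _ => (small_GA hρ hs hn (P.mem m) (hKc m) (hKt m)).const_mul _).neg
  simp only [mul_zero, Finset.sum_const_zero, neg_zero] at hlim
  refine le_of_tendsto hlim ?_
  filter_upwards [self_mem_nhdsWithin] with δ hδ using hint δ hδ

omit [T2Space X] [CompactSpace X] in
lemma RForm.smul {a : Chart d X → Cm d → Matrix (Fin d) (Fin d) ℂ} (ha : RForm a) (t : ℝ) :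
    RForm fun e z => (t : ℂ) • a e z where
  closed := ha.closed.smul (t : ℂ)
  herm := fun e x h => by
    have := ha.herm e x h
    unfold Matrix.IsHermitian at this ⊢
    rw [Matrix.conjTranspose_smul, this]
    simp

/-- an effective divisor pairs nonnegatively with a nef class -/
theorem eff_nef (hq : Pairing q) (hρ : IsMetric L ρ) (hs : IsSection L s) (hn : NLZ L s)
    {θ w : Chart d X → Cm d → Matrix (Fin d) (Fin d) ℂ} (hθ : RForm θ) (hw : RForm w)
    (hnef : ∀ ε : ℝ, 0 < ε → ∃ u : X → ℝ, Smooth (d := d) u ∧ ∀ e x, At e x →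
      (θ e (e x) + (ε : ℂ) • w e (e x) + ddc u e (e x)).PosSemidef) :
    0 ≤ INT.intX (fun e z => q e z (curvature L ρ e z) (θ e z)) := by
  set A := INT.intX (fun e z => q e z (curvature L ρ e z) (θ e z)) with hA
  set B := INT.intX (fun e z => q e z (curvature L ρ e z) (w e z)) with hB
  have hc := rform_curvature hρ
  have h1 : ∀ ε : ℝ, 0 < ε → 0 ≤ A + ε * B := by
    intro ε hε
    obtain ⟨u, hu, hpsd⟩ := hnef ε hε
    have hw' := hw.smul ε
    have h2 := eff hq hρ hs hn ((hθ.add hw').add (rform_ddc hu)) hpsd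
    have h3 := hq.stokes_right (curvature L ρ) (fun e z => θ e z + (ε : ℂ) • w e z) u hc
      (hθ.add hw') hu
    rw [h3] at h2
    have h4 : INT.intX (fun e z => q e z (curvature L ρ e z) (θ e z + (ε : ℂ) • w e z)) =
        A + ε * B := by
      have h5 : (fun (e : Chart d X) z => q e z (curvature L ρ e z) (θ e z + (ε : ℂ) • w e z)) =
          fun e z => q e z (curvature L ρ e z) (θ e z) +
            ε * q e z (curvature L ρ e z) (w e z) := by
        funext e z
        rw [hq.add_right, hq.smul_right]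
      rw [h5, INT.intX_add (hq.dens _ _ hc hθ) ((hq.dens _ _ hc hw).const_mul ε),
        INT.intX_const_mul]
    rw [h4] at h2
    exact h2
  have hlim : Tendsto (fun ε : ℝ => A + ε * B) (𝓝[>] 0) (𝓝 (A + 0 * B)) :=
    ((tendsto_const_nhds.add (tendsto_id.mul_const B)).mono_left nhdsWithin_le_nhds)
  rw [zero_mul, add_zero] at hlim
  refine ge_of_tendsto hlim ?_
  filter_upwards [self_mem_nhdsWithin] with ε hε using h1 ε hε

end Vale.Agent.P301.H98
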