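import Vale.Agent.P301.H98.Cop
import Vale.Agent.P301.H508.Slice

/-! Coprime sections in the sense of `Prim`. -/

open scoped Manifold ContDiff ComplexOrder ComplexConjugate Topology ENNReal
open MeasureTheory Set Filter Metric

noncomputable section

namespace Vale.Agent.P301.H98

open Vale.Agent.P272.K Vale.Agent.P301.H599 Vale.Agent.P301.H508

variable {d : ℕ}

/-- a holomorphic function which is constant along `v` is annihilated by `∂_v` -/
lemma dv_of_inv {r : Cm d → ℂ} {z v : Cm d} (hr : AnalyticAt ℂ r z)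
    (h : ∀ ζ : ℂ, r (z + ζ • v) = r z) : dv v r z = 0 := by
  have hd : DifferentiableAt ℂ r z := hr.differentiableAt
  have h1 : fderiv ℂ r z v = 0 := by
    have h2 : HasDerivAt (fun ζ : ℂ => z + ζ • v) v 0 := by
      have := ((hasDerivAt_id (0:ℂ)).smul_const v).const_add z
      simpa using this
    have h3 : HasDerivAt (fun ζ : ℂ => r (z + ζ • v)) (fderiv ℂ r z v) 0 := by
      have h4 : HasFDerivAt r (fderiv ℂ r z) (z + (0:ℂ) • v) := by
        simpa using hd.hasFDerivAt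
      exact h4.comp_hasDerivAt (0:ℂ) h2
    have h5 : (fun ζ : ℂ => r (z + ζ • v)) = fun _ => r z := funext h
    rw [h5] at h3
    exact h3.unique (hasDerivAt_const _ _)
  have h2 : ∀ j, dz j r z = fderiv ℂ r z (Pi.single j 1) := fun j => INT.dz_of_holo hd j
  unfold dv
  simp only [h2]
  have h3 : v = ∑ j, v j • (Pi.single j (1:ℂ) : Cm d) := by
    ext k
    simp [Finset.sum_apply, Pi.single_apply]
  have h4 : fderiv ℂ r z v = ∑ j, v j * fderiv ℂ r z (Pi.single j 1) := by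
    conv_lhs => rw [h3]
    rw [map_sum]
    exact Finset.sum_congr rfl fun j _ => by rw [map_smul, smul_eq_mul]
  rw [← h4, h1]

/-- the slice property of a primitive pair -/
theorem Slice.of_prim {f₁ f₂ : Cm d → ℂ} {a v : Cm d} (h : Prim (fun z => ![f₁ z, f₂ z]) a)
    (hv : ¬ ∀ᶠ ζ in 𝓝 (0:ℂ), f₁ (a + ζ • v) = 0) : Slice f₁ f₂ a v := by
  obtain ⟨r, A, hr, hA, hrel, hne, hinv⟩ := slice h (v := v) (j₀ := 0) (by simpa using hv)
  refine ⟨A 0, A 1, r, hA 0, hA 1, hr, ?_, hne, ?_⟩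
  · filter_upwards [hrel] with z hz
    rw [hz, Fin.sum_univ_two]
    simp
  · filter_upwards [hr.eventually_analyticAt] with z hz
    exact dv_of_inv hz fun ζ => hinv z ζ

variable {X : Type} [TopologicalSpace X] [ChartedSpace (Cm d) X]
  {ι₁ ι₂ : Type} {L₁ : LineBundle d X ι₁} {L₂ : LineBundle d X ι₂}
  {s₁ : ι₁ → X → ℂ} {s₂ : ι₂ → X → ℂ}

/-- coprime sections, from primitivity -/
theorem Coprime.of_prim (h : ∀ (e : Chart d X) x, At e x → ∃ i j, x ∈ L₁.U i ∧ x ∈ L₂.U j ∧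
    (¬ ∀ᶠ z in 𝓝 (e x), s₁ i (e.symm z) = 0) ∧
    Prim (fun z => ![s₁ i (e.symm z), s₂ j (e.symm z)]) (e x)) : Coprime L₁ L₂ s₁ s₂ := by
  intro e x hx
  obtain ⟨i, j, hi, hj, h1, h2⟩ := h e x hx
  exact ⟨i, j, hi, hj, h1, fun v hv => Slice.of_prim h2 hv⟩

end Vale.Agent.P301.H98
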