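import Vale.Agent.P301.H98.Log
import Vale.Agent.P272.K.INT.Local

/-! Integration by parts in a complex direction. -/

open scoped ContDiff ComplexOrder ComplexConjugate Topology ENNReal
open MeasureTheory Set Filter Metric

noncomputable section

namespace Vale.Agent.P301.H98

open Vale.Agent.P272.K

variable {d : ℕ}

/-- `∂_v` -/
def dv (v : Cm d) (F : Cm d → ℂ) (z : Cm d) : ℂ := ∑ j, v j * dz j F z

/-- `∂̄_v` -/
def dvb (v : Cm d) (F : Cm d → ℂ) (z : Cm d) : ℂ := ∑ j, conj (v j) * dzb j F z

/-- the Levi form in the direction `v` -/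
def lv (v : Cm d) (u : Cm d → ℝ) (z : Cm d) : ℂ :=
  ∑ j, ∑ k, v j * conj (v k) * cHess u z j k

section
variable {v : Cm d} {F G : Cm d → ℂ} {z : Cm d}

lemma dv_congr (h : F =ᶠ[𝓝 z] G) : dv v F z = dv v G z := by
  unfold dv
  exact Finset.sum_congr rfl fun j _ => by rw [C2.dz_congr j h]

lemma dvb_congr (h : F =ᶠ[𝓝 z] G) : dvb v F z = dvb v G z := by
  unfold dvb
  exact Finset.sum_congr rfl fun j _ => by rw [C2.dzb_congr j h]

lemma dv_zero (z : Cm d) : dv v (fun _ => 0) z = 0 := by
  unfold dv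
  exact Finset.sum_eq_zero fun j _ => by rw [C2.dz_const, mul_zero]

lemma dvb_zero (z : Cm d) : dvb v (fun _ => 0) z = 0 := by
  unfold dvb
  exact Finset.sum_eq_zero fun j _ => by rw [C2.dzb_const, mul_zero]

lemma dv_mul (hF : DifferentiableAt ℝ F z) (hG : DifferentiableAt ℝ G z) :
    dv v (fun y => F y * G y) z = dv v F z * G z + F z * dv v G z := by
  unfold dv
  rw [Finset.sum_mul, Finset.mul_sum, ← Finset.sum_add_distrib]
  exact Finset.sum_congr rfl fun j _ => by rw [C2.dz_mul j hF hG]; ring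

lemma dvb_mul (hF : DifferentiableAt ℝ F z) (hG : DifferentiableAt ℝ G z) :
    dvb v (fun y => F y * G y) z = dvb v F z * G z + F z * dvb v G z := by
  unfold dvb
  rw [Finset.sum_mul, Finset.mul_sum, ← Finset.sum_add_distrib]
  exact Finset.sum_congr rfl fun j _ => by rw [C2.dzb_mul j hF hG]; ring

lemma contDiffAt_dv {m k : WithTop ℕ∞} (hF : ContDiffAt ℝ k F z) (h : m + 1 ≤ k) :
    ContDiffAt ℝ m (dv v F) z := by
  unfold dv
  exact ContDiffAt.sum fun j _ => contDiffAt_const.mul (C2.contDiffAt_dz j hF h)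

lemma contDiffAt_dvb {m k : WithTop ℕ∞} (hF : ContDiffAt ℝ k F z) (h : m + 1 ≤ k) :
    ContDiffAt ℝ m (dvb v F) z := by
  unfold dvb
  exact ContDiffAt.sum fun j _ => contDiffAt_const.mul (C2.contDiffAt_dzb j hF h)

lemma dv_dvb (hF : ContDiffAt ℝ 2 F z) :
    dv v (dvb v F) z = ∑ j, ∑ k, v j * conj (v k) * dz j (dzb k F) z := by
  unfold dv dvb
  refine Finset.sum_congr rfl fun j _ => ?_
  rw [C2.dz_sum j _ (fun k _ => (C2.differentiableAt_dzb k hF).const_mul _), Finset.mul_sum]
  refine Finset.sum_congr rfl fun k _ => ?_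
  rw [C2.dz_const_mul j _ (C2.differentiableAt_dzb k hF)]
  ring

lemma dvb_dv (hF : ContDiffAt ℝ 2 F z) : dvb v (dv v F) z = dv v (dvb v F) z := by
  rw [dv_dvb hF]
  unfold dv dvb
  rw [Finset.sum_comm]
  refine Finset.sum_congr rfl fun k _ => ?_
  rw [C2.dzb_sum k _ (fun j _ => (C2.differentiableAt_dz j hF).const_mul _), Finset.mul_sum]
  refine Finset.sum_congr rfl fun j _ => ?_
  rw [C2.dzb_const_mul k _ (C2.differentiableAt_dz j hF), C2.dz_dzb_comm j k hF]
  ring

end

lemma lv_eq {v : Cm d} {u : Cm d → ℝ} {z : Cm d} (hu : ContDiffAt ℝ 2 u z) :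
    lv v u z = dv v (dvb v fun y => (u y : ℂ)) z := by
  rw [dv_dvb (C2.contDiffAt_ofReal hu)]; rfl

lemma integral_dv_eq_zero {F : Cm d → ℂ} (hF : ContDiff ℝ 1 F) (hc : HasCompactSupport F)
    (v : Cm d) : ∫ z, dv v F z = 0 := by
  have hi : ∀ j, Integrable (fun z => v j * dz j F z) := fun j => by
    have h1 : Continuous (dz j F) := by
      rw [INT.dz_fun_eq]
      have := hF.continuous_fderiv (by norm_num)
      exact continuous_const.mul ((this.clm_apply continuous_const).sub
        (continuous_const.mul (this.clm_apply continuous_const)))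
    refine (h1.integrable_of_hasCompactSupport (HasCompactSupport.intro hc fun z hz => ?_)).const_mul _
    have h0 : F =ᶠ[𝓝 z] fun _ => 0 := notMem_tsupport_iff_eventuallyEq.1 hz
    rw [C2.dz_congr j h0, C2.dz_const]
  unfold dv
  rw [integral_finsetSum _ fun j _ => hi j]
  refine Finset.sum_eq_zero fun j _ => ?_
  rw [integral_const_mul, INT.integral_dz_eq_zero hF hc, mul_zero]

lemma integral_dvb_eq_zero {F : Cm d → ℂ} (hF : ContDiff ℝ 1 F) (hc : HasCompactSupport F)
    (v : Cm d) : ∫ z, dvb v F z = 0 := by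
  have hi : ∀ j, Integrable (fun z => conj (v j) * dzb j F z) := fun j => by
    have h1 : Continuous (dzb j F) := by
      rw [INT.dzb_fun_eq]
      have := hF.continuous_fderiv (by norm_num)
      exact continuous_const.mul ((this.clm_apply continuous_const).add
        (continuous_const.mul (this.clm_apply continuous_const)))
    refine (h1.integrable_of_hasCompactSupport (HasCompactSupport.intro hc fun z hz => ?_)).const_mul _
    have h0 : F =ᶠ[𝓝 z] fun _ => 0 := notMem_tsupport_iff_eventuallyEq.1 hz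
    rw [C2.dzb_congr j h0, C2.dzb_const]
  unfold dvb
  rw [integral_finsetSum _ fun j _ => hi j]
  refine Finset.sum_eq_zero fun j _ => ?_
  rw [integral_const_mul, INT.integral_dzb_eq_zero hF hc, mul_zero]

lemma contDiff_of_supp {F : Cm d → ℂ} {K : Set (Cm d)} (hK : IsClosed K) {m : WithTop ℕ∞}
    (h1 : ∀ z ∈ K, ContDiffAt ℝ m F z) (h0 : ∀ z, z ∉ K → F z = 0) : ContDiff ℝ m F := by
  rw [contDiff_iff_contDiffAt]
  intro z
  by_cases hz : z ∈ K
  · exact h1 z hz
  · refine contDiffAt_const (c := (0:ℂ)) |>.congr_of_eventuallyEq ?_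
    filter_upwards [hK.isOpen_compl.mem_nhds hz] with y hy using h0 y hy

/-- integration by parts: `χ` with compact support in `U`, `ψ` annihilated by `∂_v` and `∂̄_v` -/
theorem integral_parts {U : Set (Cm d)} {χ ψ u : Cm d → ℝ} {v : Cm d}
    (hχ : ContDiff ℝ ∞ χ) (hc : HasCompactSupport χ) (hs : tsupport χ ⊆ U)
    (hψ : ∀ z ∈ U, ContDiffAt ℝ ∞ ψ z) (hu : ∀ z ∈ U, ContDiffAt ℝ ∞ u z)
    (hψv : ∀ z ∈ U, dv v (fun y => (ψ y : ℂ)) z = 0) :
    ∫ z, ((χ z * ψ z : ℝ) : ℂ) * lv v u z = ∫ z, ((ψ z * u z : ℝ) : ℂ) * lv v χ z := by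
  set X : Cm d → ℂ := fun z => (χ z : ℂ) with hX
  set Ψ : Cm d → ℂ := fun z => (ψ z : ℂ) with hΨ
  set W : Cm d → ℂ := fun z => (u z : ℂ) with hW
  have hXs : ∀ z, ContDiffAt ℝ ∞ X z := fun z => C2.contDiffAt_ofReal hχ.contDiffAt
  have hΨs : ∀ z ∈ U, ContDiffAt ℝ ∞ Ψ z := fun z hz => C2.contDiffAt_ofReal (hψ z hz)
  have hWs : ∀ z ∈ U, ContDiffAt ℝ ∞ W z := fun z hz => C2.contDiffAt_ofReal (hu z hz)
  have hψb : ∀ z ∈ U, dvb v Ψ z = 0 := by
    intro z hz
    have h1 := hψv z hz
    have h2 : dvb v Ψ z = conj (dv v Ψ z) := by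
      unfold dv dvb
      rw [map_sum]
      refine Finset.sum_congr rfl fun j _ => ?_
      rw [map_mul, hΨ, C2.dzb_real j ((hψ z hz).differentiableAt (by simp))]
    rw [h2, h1, map_zero]
  set K := tsupport χ with hK
  have hX0 : ∀ z, z ∉ K → X =ᶠ[𝓝 z] fun _ => 0 := fun z hz => by
    filter_upwards [notMem_tsupport_iff_eventuallyEq.1 hz] with y hy
    simp [hX, hy]
  set F₁ : Cm d → ℂ := fun z => (X z * Ψ z) * dvb v W z with hF₁
  set F₂ : Cm d → ℂ := fun z => (Ψ z * W z) * dv v X z with hF₂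
  have h10 : ∀ z, z ∉ K → F₁ z = 0 := fun z hz => by
    simp only [hF₁]; rw [(hX0 z hz).eq_of_nhds, zero_mul, zero_mul]
  have h20 : ∀ z, z ∉ K → F₂ z = 0 := fun z hz => by
    simp only [hF₂]; rw [dv_congr (hX0 z hz), dv_zero, mul_zero]
  have h1s : ContDiff ℝ 1 F₁ := contDiff_of_supp (isClosed_tsupport χ) (fun z hz => by
    refine ContDiffAt.of_le (n := ∞) ?_ (by exact_mod_cast le_top)
    exact ((hXs z).mul (hΨs z (hs hz))).mul (contDiffAt_dvb (hWs z (hs hz)) (by norm_num))) h10
  have h2s : ContDiff ℝ 1 F₂ := contDiff_of_supp (isClosed_tsupport χ) (fun z hz => by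
    refine ContDiffAt.of_le (n := ∞) ?_ (by exact_mod_cast le_top)
    exact ((hΨs z (hs hz)).mul (hWs z (hs hz))).mul (contDiffAt_dv (hXs z) (by norm_num))) h20
  have h1c : HasCompactSupport F₁ := HasCompactSupport.intro hc fun z hz => h10 z hz
  have h2c : HasCompactSupport F₂ := HasCompactSupport.intro hc fun z hz => h20 z hz
  have e1 := integral_dv_eq_zero h1s h1c v
  have e2 := integral_dvb_eq_zero h2s h2c v
  have key : ∀ z, ((χ z * ψ z : ℝ) : ℂ) * lv v u z - ((ψ z * u z : ℝ) : ℂ) * lv v χ z =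
      dv v F₁ z - dvb v F₂ z := by
    intro z
    by_cases hz : z ∈ K
    · have hzU := hs hz
      have dX : DifferentiableAt ℝ X z := (hXs z).differentiableAt (by simp)
      have dΨ : DifferentiableAt ℝ Ψ z := (hΨs z hzU).differentiableAt (by simp)
      have dW : DifferentiableAt ℝ W z := (hWs z hzU).differentiableAt (by simp)
      have dbW : DifferentiableAt ℝ (dvb v W) z :=
        (contDiffAt_dvb (m := ∞) (hWs z hzU) (by norm_num)).differentiableAt (by simp)
      have dXX : DifferentiableAt ℝ (dv v X) z :=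
        (contDiffAt_dv (m := ∞) (hXs z) (by norm_num)).differentiableAt (by simp)
      have hX2 : ContDiffAt ℝ 2 X z := (hXs z).of_le (by norm_cast)
      have a1 : dv v F₁ z = dv v X z * Ψ z * dvb v W z + X z * Ψ z * dv v (dvb v W) z := by
        simp only [hF₁]
        rw [dv_mul (dX.fun_mul dΨ) dbW, dv_mul dX dΨ, hψv z hzU]
        ring
      have a2 : dvb v F₂ z = Ψ z * dvb v W z * dv v X z + Ψ z * W z * dv v (dvb v X) z := by
        simp only [hF₂]
        rw [dvb_mul (dΨ.fun_mul dW) dXX, dvb_mul dΨ dW, hψb z hzU, dvb_dv hX2]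
        ring
      rw [a1, a2, lv_eq ((hu z hzU).of_le (by norm_cast)), lv_eq (hχ.contDiffAt.of_le (by norm_cast))]
      push_cast
      ring
    · have b1 : F₁ =ᶠ[𝓝 z] fun _ => 0 := by
        filter_upwards [(isClosed_tsupport χ).isOpen_compl.mem_nhds hz] with y hy using h10 y hy
      have b2 : F₂ =ᶠ[𝓝 z] fun _ => 0 := by
        filter_upwards [(isClosed_tsupport χ).isOpen_compl.mem_nhds hz] with y hy using h20 y hy
      have b3 : χ z = 0 := image_eq_zero_of_notMem_tsupport hz
      have b4 : lv v χ z = 0 := by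
        unfold lv
        rw [INT.cHess_zero_of_notMem hz]
        simp
      rw [dv_congr b1, dvb_congr b2, dv_zero, dvb_zero, b3, b4]
      simp
  have hdv : Integrable (fun z => dv v F₁ z) := by
    have hcd : Continuous (dv v F₁) := by
      have := h1s.continuous_fderiv (by norm_num)
      unfold dv
      refine continuous_finsetSum _ fun j _ => continuous_const.mul ?_
      rw [INT.dz_fun_eq]
      exact continuous_const.mul ((this.clm_apply continuous_const).sub
        (continuous_const.mul (this.clm_apply continuous_const)))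
    refine hcd.integrable_of_hasCompactSupport (HasCompactSupport.intro h1c fun z hz => ?_)
    rw [dv_congr (notMem_tsupport_iff_eventuallyEq.1 hz)]
    exact dv_zero z
  have hdvb : Integrable (fun z => dvb v F₂ z) := by
    have hcd : Continuous (dvb v F₂) := by
      have := h2s.continuous_fderiv (by norm_num)
      unfold dvb
      refine continuous_finsetSum _ fun j _ => continuous_const.mul ?_
      rw [INT.dzb_fun_eq]
      exact continuous_const.mul ((this.clm_apply continuous_const).add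
        (continuous_const.mul (this.clm_apply continuous_const)))
    refine hcd.integrable_of_hasCompactSupport (HasCompactSupport.intro h2c fun z hz => ?_)
    rw [dvb_congr (notMem_tsupport_iff_eventuallyEq.1 hz)]
    exact dvb_zero z
  -- integrability of the two sides
  have hI2 : Integrable (fun z => ((ψ z * u z : ℝ) : ℂ) * lv v χ z) := by
    have hcs : ContDiff ℝ 0 (fun z => ((ψ z * u z : ℝ) : ℂ) * lv v χ z) := by
      refine contDiff_of_supp (isClosed_tsupport χ) (fun z hz => ?_) fun z hz => ?_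
      · refine ContDiffAt.mul ?_ ?_
        · exact (C2.contDiffAt_ofReal ((hψ z (hs hz)).mul (hu z (hs hz)))).of_le bot_le
        · unfold lv
          refine ContDiffAt.sum fun j _ => ContDiffAt.sum fun k _ => contDiffAt_const.mul ?_
          exact (INT.smooth_cHess hχ.contDiffAt j k).of_le bot_le
      · unfold lv
        rw [INT.cHess_zero_of_notMem hz]; simp
    refine hcs.continuous.integrable_of_hasCompactSupport (HasCompactSupport.intro hc fun z hz => ?_)
    unfold lv
    rw [INT.cHess_zero_of_notMem hz]; simp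
  have hI1 : Integrable (fun z => ((χ z * ψ z : ℝ) : ℂ) * lv v u z) := by
    have := (hdv.sub hdvb).add hI2
    refine this.congr (Eventually.of_forall fun z => ?_)
    have := key z
    simp only [Pi.add_apply, Pi.sub_apply]
    linear_combination -this
  have := integral_sub hI1 hI2
  have h3 : ∫ z, (((χ z * ψ z : ℝ) : ℂ) * lv v u z - ((ψ z * u z : ℝ) : ℂ) * lv v χ z) =
      ∫ z, (dv v F₁ z - dvb v F₂ z) := by
    congr 1; funext z; exact key z
  rw [h3, integral_sub hdv hdvb, e1, e2, sub_zero] at this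
  exact (sub_eq_zero.1 this.symm)

end Vale.Agent.P301.H98
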