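import Vale.Agent.P301.H98.Sec
import Mathlib.Algebra.Order.Chebyshev

/-! The intersection number of two effective divisors without common component, against a weakly
positive closed form, is nonnegative. -/

open scoped Manifold ContDiff ComplexOrder ComplexConjugate Topology ENNReal
open MeasureTheory Set Filter Metric

noncomputable section

namespace Vale.Agent.P301.H98

open Vale.Agent.P272.K Vale.Agent.P301.H599

variable {d : ℕ} {X : Type} [TopologicalSpace X] [T2Space X] [CompactSpace X]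
  [ChartedSpace (Cm d) X] [IsManifold 𝓘(ℂ, Cm d) ω X]

/-- a pairing of `(1,1)`-forms with values in densities: `(a, b) ↦ a ∧ b ∧ Ω`, `Ω` closed and weakly
positive -/
structure Pairing
    (q : Chart d X → Cm d → Matrix (Fin d) (Fin d) ℂ → Matrix (Fin d) (Fin d) ℂ → ℝ) : Prop where
  add_left : ∀ e z A A' B, q e z (A + A') B = q e z A B + q e z A' B
  add_right : ∀ e z A B B', q e z A (B + B') = q e z A B + q e z A B'
  smul_left : ∀ e z (t : ℝ) A B, q e z ((t : ℂ) • A) B = t * q e z A B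
  smul_right : ∀ e z (t : ℝ) A B, q e z A ((t : ℂ) • B) = t * q e z A B
  pos : ∀ e x, At e x → ∀ u v : Cm d,
    0 ≤ q e (e x) (Matrix.vecMulVec u (star u)) (Matrix.vecMulVec v (star v))
  bound : ∀ e ∈ atlas (Cm d) X, ∀ K : Set (Cm d), IsCompact K → K ⊆ e.target →
    ∃ C : ℝ, 0 ≤ C ∧ ∀ z ∈ K, ∀ A B : Matrix (Fin d) (Fin d) ℂ,
      |q e z A B| ≤ C * (∑ i, ∑ j, ‖A i j‖) * ∑ i, ∑ j, ‖B i j‖
  dens : ∀ a b, RForm a → RForm b → INT.IsDensity fun e z => q e z (a e z) (b e z)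
  stokes_left : ∀ (a b : Chart d X → Cm d → Matrix (Fin d) (Fin d) ℂ) (u : X → ℝ), RForm a →
    RForm b → Smooth (d := d) u →
    INT.intX (fun e z => q e z (a e z + ddc u e z) (b e z)) =
      INT.intX (fun e z => q e z (a e z) (b e z))
  stokes_right : ∀ (a b : Chart d X → Cm d → Matrix (Fin d) (Fin d) ℂ) (u : X → ℝ), RForm a →
    RForm b → Smooth (d := d) u →
    INT.intX (fun e z => q e z (a e z) (b e z + ddc u e z)) =
      INT.intX (fun e z => q e z (a e z) (b e z))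

variable {ι₁ ι₂ : Type} {L₁ : LineBundle d X ι₁} {L₂ : LineBundle d X ι₂} {ρ₁ : ι₁ → X → ℝ}
  {ρ₂ : ι₂ → X → ℝ} {s₁ : ι₁ → X → ℂ} {s₂ : ι₂ → X → ℂ}

omit [T2Space X] [CompactSpace X] in
lemma sum_norm_Pm (f : Cm d → ℂ) (ρ : Cm d → ℝ) {δ : ℝ} (hδ : 0 ≤ δ) (z : Cm d) :
    ∑ i, ∑ j, ‖Pm f ρ δ z i j‖ ≤ d * tp f ρ δ z := by
  have hc := cf_nonneg (f := f) (ρ := ρ) hδ z
  have h1 : ∀ i j, ‖Pm f ρ δ z i j‖ = cf f ρ δ z * (‖Dc f ρ z i‖ * ‖Dc f ρ z j‖) := by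
    intro i j
    simp only [Pm, Matrix.smul_apply, Matrix.vecMulVec_apply, smul_eq_mul, Pi.star_apply,
      norm_mul, Complex.norm_real, Real.norm_eq_abs, abs_of_nonneg hc, norm_star]
  simp only [h1, ← Finset.mul_sum]
  rw [← Finset.sum_mul]
  unfold tp
  have h2 : (∑ i, ‖Dc f ρ z i‖) * ∑ i, ‖Dc f ρ z i‖ ≤ d * ∑ k, ‖Dc f ρ z k‖ ^ 2 := by
    have := sq_sum_le_card_mul_sum_sq (s := (Finset.univ : Finset (Fin d)))
      (f := fun i => ‖Dc f ρ z i‖)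
    rw [Finset.card_univ, Fintype.card_fin] at this
    nlinarith [this]
  calc cf f ρ δ z * ((∑ i, ‖Dc f ρ z i‖) * ∑ i, ‖Dc f ρ z i‖) ≤
      cf f ρ δ z * (d * ∑ k, ‖Dc f ρ z k‖ ^ 2) := mul_le_mul_of_nonneg_left h2 hc
    _ = d * (cf f ρ δ z * ∑ k, ‖Dc f ρ z k‖ ^ 2) := by ring

/-- `δ / (|s|² + δ)` -/
def GA {ι : Type} (L : LineBundle d X ι) (ρ : ι → X → ℝ) (s : ι → X → ℂ) (δ : ℝ) (x : X) : ℝ :=
  δ / (nrm L ρ s x + δ)

/-- the trace of the positive part of `Tf` in the chart -/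
def GT {ι : Type} (L : LineBundle d X ι) (ρ : ι → X → ℝ) (s : ι → X → ℂ) (δ : ℝ)
    (e : Chart d X) (z : Cm d) : ℝ :=
  ∑ k, ((Tf L ρ s δ e z k k).re - GA L ρ s δ (e.symm z) * (curvature L ρ e z k k).re)

omit [T2Space X] [CompactSpace X] [IsManifold 𝓘(ℂ, Cm d) ω X] in
lemma GA_eq {ι : Type} {L : LineBundle d X ι} {ρ : ι → X → ℝ} {s : ι → X → ℂ}
    (hρ : IsMetric L ρ) (hs : IsSection L s) {δ : ℝ} {e : Chart d X} {i : ι} {z : Cm d}
    (hz : e.symm z ∈ L.U i) : GA L ρ s δ (e.symm z) =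
      al (fun z => s i (e.symm z)) (fun z => ρ i (e.symm z)) δ z := by
  unfold GA al
  rw [nrm_symm hρ hs hz]

omit [T2Space X] [CompactSpace X] in
lemma GT_eq {ι : Type} {L : LineBundle d X ι} {ρ : ι → X → ℝ} {s : ι → X → ℂ}
    (hρ : IsMetric L ρ) (hs : IsSection L s) {δ : ℝ} (hδ : 0 < δ) {e : Chart d X}
    (he : e ∈ atlas (Cm d) X) {i : ι} {z : Cm d} (hz : z ∈ e.target) (hi : e.symm z ∈ L.U i) :
    GT L ρ s δ e z = tp (fun z => s i (e.symm z)) (fun z => ρ i (e.symm z)) δ z := by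
  have hx : At e (e.symm z) := At.of_target he hz
  have h1 := Tf_eq hρ hs hδ hx hi
  have h2 := curvature_eq hρ hx hi
  rw [e.right_inv hz] at h1 h2
  unfold GT tp
  rw [Finset.mul_sum]
  refine Finset.sum_congr rfl fun k _ => ?_
  rw [GA_eq hρ hs hi, h1, h2, Matrix.add_apply, Complex.add_re, Pm_diag, Matrix.smul_apply,
    smul_eq_mul, Complex.re_ofReal_mul]
  unfold ddc
  ring

variable (L₁ L₂ ρ₁ ρ₂ s₁ s₂) in
/-- the global version of `gg` -/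
def GG (δ' δ : ℝ) (e : Chart d X) (z : Cm d) : ℝ :=
  GA L₁ ρ₁ s₁ δ (e.symm z) * (GA L₂ ρ₂ s₂ δ' (e.symm z) + GT L₂ ρ₂ s₂ δ' e z) +
    GA L₂ ρ₂ s₂ δ' (e.symm z) * GT L₁ ρ₁ s₁ δ e z

omit [T2Space X] [CompactSpace X] in
lemma GG_eq (hρ₁ : IsMetric L₁ ρ₁) (hρ₂ : IsMetric L₂ ρ₂) (hs₁ : IsSection L₁ s₁)
    (hs₂ : IsSection L₂ s₂) {δ' δ : ℝ} (hδ' : 0 < δ') (hδ : 0 < δ) {e : Chart d X}
    (he : e ∈ atlas (Cm d) X) {i : ι₁} {j : ι₂} {z : Cm d} (hz : z ∈ e.target)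
    (hi : e.symm z ∈ L₁.U i) (hj : e.symm z ∈ L₂.U j) :
    GG L₁ L₂ ρ₁ ρ₂ s₁ s₂ δ' δ e z =
      gg (fun z => s₁ i (e.symm z)) (fun z => s₂ j (e.symm z)) (fun z => ρ₁ i (e.symm z))
        (fun z => ρ₂ j (e.symm z)) δ' δ z := by
  unfold GG gg
  rw [GA_eq hρ₁ hs₁ hi, GA_eq hρ₂ hs₂ hj, GT_eq hρ₁ hs₁ hδ he hz hi, GT_eq hρ₂ hs₂ hδ' he hz hj]

omit [T2Space X] [CompactSpace X] in
lemma GG_nonneg (hρ₁ : IsMetric L₁ ρ₁) (hρ₂ : IsMetric L₂ ρ₂) (hs₁ : IsSection L₁ s₁)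
    (hs₂ : IsSection L₂ s₂) {δ' δ : ℝ} (hδ' : 0 < δ') (hδ : 0 < δ) {e : Chart d X}
    (he : e ∈ atlas (Cm d) X) {z : Cm d} (hz : z ∈ e.target) :
    0 ≤ GG L₁ L₂ ρ₁ ρ₂ s₁ s₂ δ' δ e z := by
  obtain ⟨i, hi⟩ := L₁.cover (e.symm z)
  obtain ⟨j, hj⟩ := L₂.cover (e.symm z)
  rw [GG_eq hρ₁ hρ₂ hs₁ hs₂ hδ' hδ he hz hi hj]
  exact gg_nonneg hδ'.le hδ.le z

omit [T2Space X] [CompactSpace X] in
lemma continuousOn_GG (hρ₁ : IsMetric L₁ ρ₁) (hρ₂ : IsMetric L₂ ρ₂) (hs₁ : IsSection L₁ s₁)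
    (hs₂ : IsSection L₂ s₂) {δ' δ : ℝ} (hδ' : 0 < δ') (hδ : 0 < δ) {e : Chart d X}
    (he : e ∈ atlas (Cm d) X) : ContinuousOn (GG L₁ L₂ ρ₁ ρ₂ s₁ s₂ δ' δ e) e.target := by
  intro z hz
  have hx : At e (e.symm z) := At.of_target he hz
  obtain ⟨i, hi⟩ := L₁.cover (e.symm z)
  obtain ⟨j, hj⟩ := L₂.cover (e.symm z)
  have h1 := ev_mem hx hi
  have h2 := ev_mem hx hj
  have a1 := hs₁.holo i e _ hx hi
  have a2 := hs₂.holo j e _ hx hj
  have a3 := hρ₁.smooth i e _ hx hi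
  have a4 := hρ₂.smooth j e _ hx hj
  rw [e.right_inv hz] at h1 h2 a1 a2 a3 a4
  refine ContinuousAt.continuousWithinAt ?_
  refine (continuousAt_gg (ρ₁ := fun z => ρ₁ i (e.symm z)) (ρ₂ := fun z => ρ₂ j (e.symm z))
    a1 a2 a3 a4 hδ' hδ).congr ?_
  filter_upwards [h1, h2] with y hy1 hy2
  exact (GG_eq hρ₁ hρ₂ hs₁ hs₂ hδ' hδ he hy1.1 hy1.2 hy2.2).symm

omit [T2Space X] [CompactSpace X] in
/-- the forms are bounded on compact subsets of the charts -/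
lemma bound_curv {ι : Type} {L : LineBundle d X ι} {ρ : ι → X → ℝ} (hρ : IsMetric L ρ)
    {e : Chart d X} (he : e ∈ atlas (Cm d) X) {K : Set (Cm d)} (hK : IsCompact K)
    (hKe : K ⊆ e.target) :
    ∃ C : ℝ, 0 ≤ C ∧ ∀ z ∈ K, ∑ i, ∑ j, ‖curvature L ρ e z i j‖ ≤ C := by
  have hc : ContinuousOn (fun z => ∑ i, ∑ j, ‖curvature L ρ e z i j‖) K := by
    intro z hz
    have hx : At e (e.symm z) := At.of_target he (hKe hz)
    refine ContinuousAt.continuousWithinAt ?_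
    refine tendsto_finsetSum _ fun i _ => tendsto_finsetSum _ fun j _ => ?_
    have := ((rform_curvature hρ).closed.smooth e _ hx i j).continuousAt
    rw [e.right_inv (hKe hz)] at this
    exact this.norm
  obtain ⟨C, hC⟩ := hK.exists_bound_of_continuousOn hc
  refine ⟨|C|, abs_nonneg _, fun z hz => ?_⟩
  have := hC z hz
  rw [Real.norm_eq_abs] at this
  exact (le_abs_self _).trans (this.trans (le_abs_self _))

variable {q : Chart d X → Cm d → Matrix (Fin d) (Fin d) ℂ → Matrix (Fin d) (Fin d) ℂ → ℝ}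

/-- the lower bound of the pairing -/
lemma low (hq : Pairing q) (hρ₁ : IsMetric L₁ ρ₁) (hρ₂ : IsMetric L₂ ρ₂) (hs₁ : IsSection L₁ s₁)
    (hs₂ : IsSection L₂ s₂) {e : Chart d X} (he : e ∈ atlas (Cm d) X) {K : Set (Cm d)}
    (hK : IsCompact K) (hKe : K ⊆ e.target) :
    ∃ C : ℝ, 0 ≤ C ∧ ∀ δ', 0 < δ' → ∀ δ, 0 < δ → ∀ z ∈ K,
      -(C * GG L₁ L₂ ρ₁ ρ₂ s₁ s₂ δ' δ e z) ≤ q e z (Tf L₁ ρ₁ s₁ δ e z) (Tf L₂ ρ₂ s₂ δ' e z) := by
  obtain ⟨Cq, hCq0, hCq⟩ := hq.bound e he K hK hKe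
  obtain ⟨C1, hC10, hC1⟩ := bound_curv hρ₁ he hK hKe
  obtain ⟨C2, hC20, hC2⟩ := bound_curv hρ₂ he hK hKe
  refine ⟨Cq * (C1 * C2 + C1 * d + d * C2), by positivity, ?_⟩
  intro δ' hδ' δ hδ z hz
  have hzt := hKe hz
  have hx : At e (e.symm z) := At.of_target he hzt
  obtain ⟨i, hi⟩ := L₁.cover (e.symm z)
  obtain ⟨j, hj⟩ := L₂.cover (e.symm z)
  rw [GG_eq hρ₁ hρ₂ hs₁ hs₂ hδ' hδ he hzt hi hj]
  have t1 := Tf_eq hρ₁ hs₁ hδ hx hi
  have t2 := Tf_eq hρ₂ hs₂ hδ' hx hj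
  have c1 := curvature_eq hρ₁ hx hi
  have c2 := curvature_eq hρ₂ hx hj
  have p0 := hq.pos e _ hx
  rw [e.right_inv hzt] at t1 t2 c1 c2 p0
  have b1 := hC1 z hz
  have b2 := hC2 z hz
  rw [c1] at b1
  rw [c2] at b2
  unfold ddc at b1 b2
  rw [t1, t2]
  set f₁ : Cm d → ℂ := fun z => s₁ i (e.symm z)
  set f₂ : Cm d → ℂ := fun z => s₂ j (e.symm z)
  set r₁ : Cm d → ℝ := fun z => ρ₁ i (e.symm z)
  set r₂ : Cm d → ℝ := fun z => ρ₂ j (e.symm z)
  set A := cHess r₁ z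
  set B := cHess r₂ z
  have hP1 := sum_norm_Pm f₁ r₁ hδ.le z
  have hP2 := sum_norm_Pm f₂ r₂ hδ'.le z
  have n1 := tp_nonneg (f := f₁) (ρ := r₁) hδ.le z
  have n2 := tp_nonneg (f := f₂) (ρ := r₂) hδ'.le z
  have m1 := al_nonneg (f := f₁) (ρ := r₁) hδ.le z
  have m2 := al_nonneg (f := f₂) (ρ := r₂) hδ'.le z
  set α := al f₁ r₁ δ z
  set β := al f₂ r₂ δ' z
  set P := Pm f₁ r₁ δ z with hP
  set Q := Pm f₂ r₂ δ' z with hQ
  have hAn : 0 ≤ ∑ i, ∑ j, ‖A i j‖ :=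
    Finset.sum_nonneg fun _ _ => Finset.sum_nonneg fun _ _ => norm_nonneg _
  have hBn : 0 ≤ ∑ i, ∑ j, ‖B i j‖ :=
    Finset.sum_nonneg fun _ _ => Finset.sum_nonneg fun _ _ => norm_nonneg _
  have hPn : 0 ≤ ∑ i, ∑ j, ‖P i j‖ :=
    Finset.sum_nonneg fun _ _ => Finset.sum_nonneg fun _ _ => norm_nonneg _
  have hQn : 0 ≤ ∑ i, ∑ j, ‖Q i j‖ :=
    Finset.sum_nonneg fun _ _ => Finset.sum_nonneg fun _ _ => norm_nonneg _
  have hPQ : 0 ≤ q e z P Q := by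
    rw [hP, hQ]
    unfold Pm
    rw [hq.smul_left, hq.smul_right]
    exact mul_nonneg (cf_nonneg hδ.le z) (mul_nonneg (cf_nonneg hδ'.le z) (p0 _ _))
  have e1 : q e z ((α : ℂ) • A + P) ((β : ℂ) • B + Q) =
      α * β * q e z A B + α * q e z A Q + β * q e z P B + q e z P Q := by
    rw [hq.add_left, hq.add_right, hq.add_right, hq.smul_left, hq.smul_left, hq.smul_right,
      hq.smul_right]
    ring
  rw [e1]
  have hAB : -(Cq * C1 * C2) ≤ q e z A B := by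
    have h1 := (abs_le.1 (hCq z hz A B)).1
    have h2 : Cq * (∑ i, ∑ j, ‖A i j‖) * ∑ i, ∑ j, ‖B i j‖ ≤ Cq * C1 * C2 := by gcongr
    linarith
  have hAQ : -(Cq * C1 * (d * tp f₂ r₂ δ' z)) ≤ q e z A Q := by
    have h1 := (abs_le.1 (hCq z hz A Q)).1
    have h2 : Cq * (∑ i, ∑ j, ‖A i j‖) * ∑ i, ∑ j, ‖Q i j‖ ≤ Cq * C1 * (d * tp f₂ r₂ δ' z) := by
      gcongr
    linarith
  have hPB : -(Cq * (d * tp f₁ r₁ δ z) * C2) ≤ q e z P B := by
    have h1 := (abs_le.1 (hCq z hz P B)).1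
    have h2 : Cq * (∑ i, ∑ j, ‖P i j‖) * ∑ i, ∑ j, ‖B i j‖ ≤ Cq * (d * tp f₁ r₁ δ z) * C2 := by
      gcongr
    linarith
  have g1 := mul_le_mul_of_nonneg_left hAB (mul_nonneg m1 m2)
  have g2 := mul_le_mul_of_nonneg_left hAQ m1
  have g3 := mul_le_mul_of_nonneg_left hPB m2
  have hgg : gg f₁ f₂ r₁ r₂ δ' δ z = α * (β + tp f₂ r₂ δ' z) + β * tp f₁ r₁ δ z := rfl
  rw [hgg]
  have hd : (0:ℝ) ≤ d := Nat.cast_nonneg d
  have k1 : 0 ≤ Cq * C1 * C2 * (α * tp f₂ r₂ δ' z) := by positivity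
  have k2 : 0 ≤ Cq * C1 * C2 * (β * tp f₁ r₁ δ z) := by positivity
  have k3 : 0 ≤ Cq * C1 * d * (α * β) := by positivity
  have k4 : 0 ≤ Cq * C1 * d * (β * tp f₁ r₁ δ z) := by positivity
  have k5 : 0 ≤ Cq * d * C2 * (α * β) := by positivity
  have k6 : 0 ≤ Cq * d * C2 * (α * tp f₂ r₂ δ' z) := by positivity
  nlinarith

variable (L₁ L₂ s₁ s₂) in
/-- `s₁` is nowhere locally zero, and some combination of `s₁` and `s₂` is constant on the lines in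
every direction in which `s₁` is not identically zero. -/
def Coprime : Prop := ∀ (e : Chart d X) x, At e x → ∃ i j, x ∈ L₁.U i ∧ x ∈ L₂.U j ∧
  (¬ ∀ᶠ z in 𝓝 (e x), s₁ i (e.symm z) = 0) ∧
  ∀ v, (¬ ∀ᶠ ζ in 𝓝 (0:ℂ), s₁ i (e.symm (e x + ζ • v)) = 0) →
    Slice (fun z => s₁ i (e.symm z)) (fun z => s₂ j (e.symm z)) (e x) v

omit [T2Space X] [CompactSpace X] in
/-- smallness on compact subsets of charts -/
lemma small (hρ₁ : IsMetric L₁ ρ₁) (hρ₂ : IsMetric L₂ ρ₂) (hs₁ : IsSection L₁ s₁)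
    (hs₂ : IsSection L₂ s₂) (hc : Coprime L₁ L₂ s₁ s₂) {e : Chart d X} (he : e ∈ atlas (Cm d) X) {K : Set (Cm d)}
    (hK : IsCompact K) (hKe : K ⊆ e.target) {η : ℝ} (hη : 0 < η) :
    ∀ᶠ δ' in 𝓝[>] (0:ℝ), ∀ᶠ δ in 𝓝[>] (0:ℝ), ∫ z in K, GG L₁ L₂ ρ₁ ρ₂ s₁ s₂ δ' δ e z ≤ η := by
  -- local covers
  have hloc : ∀ a ∈ K, ∃ R > 0, closedBall a R ⊆ e.target ∧
      ∀ η : ℝ, 0 < η → ∀ᶠ δ' in 𝓝[>] (0:ℝ), ∀ᶠ δ in 𝓝[>] (0:ℝ),
        ∫ z in ball a R, GG L₁ L₂ ρ₁ ρ₂ s₁ s₂ δ' δ e z ≤ η := by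
    intro a ha
    have hat := hKe ha
    have hx : At e (e.symm a) := At.of_target he hat
    obtain ⟨i, j, hi, hj, a5, a6⟩ := hc e _ hx
    have h1 := ev_mem hx hi
    have h2 := ev_mem hx hj
    have a1 := hs₁.holo i e _ hx hi
    have a2 := hs₂.holo j e _ hx hj
    rw [e.right_inv hat] at h1 h2 a1 a2 a5 a6
    have a3 : ∀ᶠ z in 𝓝 a, ContDiffAt ℝ ∞ (fun z => ρ₁ i (e.symm z)) z := by
      filter_upwards [h1] with z hz
      have := hρ₁.smooth i e _ (At.of_target he hz.1) hz.2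
      rwa [e.right_inv hz.1] at this
    have a4 : ∀ᶠ z in 𝓝 a, ContDiffAt ℝ ∞ (fun z => ρ₂ j (e.symm z)) z := by
      filter_upwards [h2] with z hz
      have := hρ₂.smooth j e _ (At.of_target he hz.1) hz.2
      rwa [e.right_inv hz.1] at this
    obtain ⟨R, hR, hest⟩ := local_G a1 a2 a3 a4 a5 a6
    obtain ⟨R', hR', hb⟩ := Metric.eventually_nhds_iff_ball.1 (h1.and h2)
    have hR2 : 0 < min R (R' / 2) := lt_min hR (by positivity)
    obtain ⟨-, hest2⟩ := hest (min R (R' / 2)) hR2 (min_le_left _ _)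
    have hcb : closedBall a (min R (R' / 2)) ⊆ ball a R' :=
      closedBall_subset_ball ((min_le_right _ _).trans_lt (by linarith))
    refine ⟨min R (R' / 2), hR2, fun z hz => (hb z (hcb hz)).1.1, fun η hη => ?_⟩
    filter_upwards [hest2 η hη, self_mem_nhdsWithin] with δ' k1 hδ'
    filter_upwards [k1, self_mem_nhdsWithin] with δ k2 hδ
    refine le_trans (le_of_eq ?_) k2
    refine setIntegral_congr_fun measurableSet_ball fun z hz => ?_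
    have hz' := hb z (hcb (ball_subset_closedBall hz))
    exact GG_eq hρ₁ hρ₂ hs₁ hs₂ hδ' hδ he hz'.1.1 hz'.1.2 hz'.2.2
  choose! R hR hRt hest using hloc
  obtain ⟨t, htK, hcov⟩ := hK.elim_nhds_subcover (fun a => ball a (R a))
    fun a ha => ball_mem_nhds a (hR a ha)
  have hη' : 0 < η / (t.card + 1) := by positivity
  have hev : ∀ᶠ δ' in 𝓝[>] (0:ℝ), ∀ a ∈ t, ∀ᶠ δ in 𝓝[>] (0:ℝ),
      ∫ z in ball a (R a), GG L₁ L₂ ρ₁ ρ₂ s₁ s₂ δ' δ e z ≤ η / (t.card + 1) := by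
    rw [eventually_all_finset]
    exact fun a ha => hest a (htK a ha) _ hη'
  filter_upwards [hev, self_mem_nhdsWithin] with δ' k1 hδ'
  have k2 : ∀ᶠ δ in 𝓝[>] (0:ℝ), ∀ a ∈ t,
      ∫ z in ball a (R a), GG L₁ L₂ ρ₁ ρ₂ s₁ s₂ δ' δ e z ≤ η / (t.card + 1) := by
    rw [eventually_all_finset]
    exact k1
  filter_upwards [k2, self_mem_nhdsWithin] with δ k3 hδ
  have hcont := continuousOn_GG hρ₁ hρ₂ hs₁ hs₂ hδ' hδ he
  set G := GG L₁ L₂ ρ₁ ρ₂ s₁ s₂ δ' δ e with hG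
  have hiK : IntegrableOn G K := (hcont.mono hKe).integrableOn_compact hK
  have hia : ∀ a ∈ t, IntegrableOn G (ball a (R a)) := fun a ha =>
    ((hcont.mono (hRt a (htK a ha))).integrableOn_compact (isCompact_closedBall a _)).mono_set
      ball_subset_closedBall
  have hmK := hK.measurableSet
  rw [← integral_indicator hmK]
  have hle : ∫ z, K.indicator G z ≤ ∫ z, ∑ a ∈ t, (ball a (R a)).indicator G z := by
    refine integral_mono ((integrable_indicator_iff hmK).2 hiK)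
      (integrable_finsetSum _ fun a ha => (integrable_indicator_iff measurableSet_ball).2 (hia a ha)) ?_
    intro z
    show K.indicator G z ≤ ∑ a ∈ t, (ball a (R a)).indicator G z
    have hnn : ∀ a ∈ t, 0 ≤ (ball a (R a)).indicator G z := fun a ha => by
      by_cases hz : z ∈ ball a (R a)
      · rw [indicator_of_mem hz]
        exact GG_nonneg hρ₁ hρ₂ hs₁ hs₂ hδ' hδ he (hRt a (htK a ha) (ball_subset_closedBall hz))
      · rw [indicator_of_notMem hz]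
    by_cases hz : z ∈ K
    · obtain ⟨a, ha, hza⟩ := mem_iUnion₂.1 (hcov hz)
      rw [indicator_of_mem hz]
      refine le_trans (le_of_eq ?_) (Finset.single_le_sum hnn ha)
      rw [indicator_of_mem hza]
    · rw [indicator_of_notMem hz]
      exact Finset.sum_nonneg hnn
  refine hle.trans ?_
  rw [integral_finsetSum _ fun a ha => (integrable_indicator_iff measurableSet_ball).2 (hia a ha)]
  refine (Finset.sum_le_sum fun a ha => ?_).trans (b := ∑ a ∈ t, η / (t.card + 1)) ?_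
  · rw [integral_indicator measurableSet_ball]
    exact k3 a ha
  · rw [Finset.sum_const, nsmul_eq_mul]
    have h1 : (t.card : ℝ) * (η / (t.card + 1)) = η * ((t.card : ℝ) / (t.card + 1)) := by ring
    rw [h1]
    have h2 : (t.card : ℝ) / (t.card + 1) ≤ 1 := by
      rw [div_le_one (by positivity)]; linarith
    calc η * ((t.card : ℝ) / (t.card + 1)) ≤ η * 1 := mul_le_mul_of_nonneg_left h2 hη.le
      _ = η := mul_one _

/-- **COP**: two effective divisors without common component have nonnegative intersection number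
against a weakly positive closed form. -/
theorem cop (hq : Pairing q) (hρ₁ : IsMetric L₁ ρ₁) (hρ₂ : IsMetric L₂ ρ₂) (hs₁ : IsSection L₁ s₁)
    (hs₂ : IsSection L₂ s₂) (hc : Coprime L₁ L₂ s₁ s₂) :
    0 ≤ INT.intX (fun e z => q e z (curvature L₁ ρ₁ e z) (curvature L₂ ρ₂ e z)) := by
  set I := INT.intX (fun e z => q e z (curvature L₁ ρ₁ e z) (curvature L₂ ρ₂ e z)) with hI
  have hsame : ∀ δ', 0 < δ' → ∀ δ, 0 < δ →
      INT.intX (fun e z => q e z (Tf L₁ ρ₁ s₁ δ e z) (Tf L₂ ρ₂ s₂ δ' e z)) = I := by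
    intro δ' hδ' δ hδ
    have r1 := rform_curvature hρ₁
    have r2 := rform_curvature hρ₂
    have h1 := hq.stokes_left (curvature L₁ ρ₁) (Tf L₂ ρ₂ s₂ δ') (ul L₁ ρ₁ s₁ δ) r1
      (rform_Tf hρ₂ hs₂ hδ') (smooth_ul hρ₁ hs₁ hδ)
    have h2 := hq.stokes_right (curvature L₁ ρ₁) (curvature L₂ ρ₂) (ul L₂ ρ₂ s₂ δ') r1 r2
      (smooth_ul hρ₂ hs₂ hδ')
    exact h1.trans h2
  set P := INT.part d X with hP
  set K : Fin P.N → Set (Cm d) := fun m => P.e m '' tsupport (P.ρ m) with hKdef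
  have hKc : ∀ m, IsCompact (K m) := fun m =>
    (isClosed_tsupport _).isCompact.image_of_continuousOn
      ((P.e m).continuousOn.mono (P.supp m))
  have hKt : ∀ m, K m ⊆ (P.e m).target := by
    rintro m _ ⟨x, hx, rfl⟩
    exact (P.e m).map_source (P.supp m hx)
  have hρ1 : ∀ m x, P.ρ m x ≤ 1 := by
    intro m x
    have := P.sum x
    rw [← this]
    exact Finset.single_le_sum (fun j _ => P.nonneg j x) (Finset.mem_univ m)
  choose C hC0 hC using fun m => low hq hρ₁ hρ₂ hs₁ hs₂ (P.mem m) (hKc m) (hKt m)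
  have hlow : ∀ δ', 0 < δ' → ∀ δ, 0 < δ →
      -(∑ m, C m * ∫ z in K m, GG L₁ L₂ ρ₁ ρ₂ s₁ s₂ δ' δ (P.e m) z) ≤ I := by
    intro δ' hδ' δ hδ
    rw [← hsame δ' hδ' δ hδ, ← Finset.sum_neg_distrib]
    have hD := hq.dens _ _ (rform_Tf hρ₁ hs₁ hδ) (rform_Tf hρ₂ hs₂ hδ')
    unfold INT.intX
    rw [← hP]
    refine Finset.sum_le_sum fun m _ => ?_
    have hcont := continuousOn_GG hρ₁ hρ₂ hs₁ hs₂ hδ' hδ (P.mem m)
    have hiK : IntegrableOn (GG L₁ L₂ ρ₁ ρ₂ s₁ s₂ δ' δ (P.e m)) (K m) :=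
      (hcont.mono (hKt m)).integrableOn_compact (hKc m)
    have hmK := (hKc m).measurableSet
    have e1 : -(C m * ∫ z in K m, GG L₁ L₂ ρ₁ ρ₂ s₁ s₂ δ' δ (P.e m) z) =
        ∫ z in (P.e m).target, (K m).indicator
          (fun z => -(C m * GG L₁ L₂ ρ₁ ρ₂ s₁ s₂ δ' δ (P.e m) z)) z := by
      rw [setIntegral_indicator hmK, inter_eq_self_of_subset_right (hKt m), integral_neg,
        integral_const_mul]
    rw [e1]
    refine setIntegral_mono_on ?_ (INT.integrableOn_part P hD m)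
      (P.e m).open_target.measurableSet fun z hz => ?_
    · refine Integrable.integrableOn ?_
      exact (integrable_indicator_iff hmK).2 (hiK.const_mul (C m)).neg
    · by_cases hzK : z ∈ K m
      · rw [indicator_of_mem hzK]
        have h1 := hC m δ' hδ' δ hδ z hzK
        have h2 := P.nonneg m ((P.e m).symm z)
        have h3 := hρ1 m ((P.e m).symm z)
        have h4 := GG_nonneg hρ₁ hρ₂ hs₁ hs₂ hδ' hδ (P.mem m) (hKt m hzK)
        have h5 := mul_nonneg (hC0 m) h4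
        have h6 := mul_le_mul_of_nonneg_left h1 h2
        nlinarith
      · rw [indicator_of_notMem hzK]
        have h1 : P.ρ m ((P.e m).symm z) = 0 := by
          by_contra hne
          exact hzK ⟨(P.e m).symm z, subset_tsupport _ hne, (P.e m).right_inv hz⟩
        rw [h1, zero_mul]
  -- conclusion
  by_contra hneg
  push Not at hneg
  set S := ∑ m, C m with hS
  have hS0 : 0 ≤ S := Finset.sum_nonneg fun m _ => hC0 m
  set η := -I / (2 * (S + 1)) with hη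
  have hη0 : 0 < η := div_pos (by linarith) (by positivity)
  have hev : ∀ᶠ δ' in 𝓝[>] (0:ℝ), ∀ m, ∀ᶠ δ in 𝓝[>] (0:ℝ),
      ∫ z in K m, GG L₁ L₂ ρ₁ ρ₂ s₁ s₂ δ' δ (P.e m) z ≤ η := by
    rw [eventually_all]
    exact fun m => small hρ₁ hρ₂ hs₁ hs₂ hc (P.mem m) (hKc m) (hKt m) hη0
  obtain ⟨δ', k1, hδ'⟩ := (hev.and self_mem_nhdsWithin).exists
  have hev2 := eventually_all.2 k1
  obtain ⟨δ, k2, hδ⟩ := (hev2.and self_mem_nhdsWithin).exists
  have h1 := hlow δ' hδ' δ hδ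
  have h2 : ∑ m, C m * ∫ z in K m, GG L₁ L₂ ρ₁ ρ₂ s₁ s₂ δ' δ (P.e m) z ≤ ∑ m, C m * η :=
    Finset.sum_le_sum fun m _ => mul_le_mul_of_nonneg_left (k2 m) (hC0 m)
  rw [← Finset.sum_mul, ← hS] at h2
  have h3 : S * η ≤ -I / 2 := by
    rw [hη]
    have : S * (-I / (2 * (S + 1))) = (-I / 2) * (S / (S + 1)) := by
      field_simp
    rw [this]
    have h4 : S / (S + 1) ≤ 1 := by
      rw [div_le_one (by positivity)]; linarith
    calc (-I / 2) * (S / (S + 1)) ≤ (-I / 2) * 1 := mul_le_mul_of_nonneg_left h4 (by linarith)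
      _ = -I / 2 := mul_one _
  linarith

end Vale.Agent.P301.H98
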