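import Vale.Agent.P301.H98.Log
import Vale.Agent.P272.K.QN.H86.SubMean

/-! `log |f|²` is locally integrable. -/

open scoped ContDiff ComplexOrder ComplexConjugate Topology ENNReal
open MeasureTheory Set Filter Metric

noncomputable section

namespace Vale.Agent.P301.H98

open Vale.Agent.P272.K

variable {d : ℕ}

lemma lg_zero (f : Cm d → ℂ) (δ : ℝ) (z : Cm d) :
    lg f (fun _ => 0) δ z = Real.log (‖f z‖ ^ 2 + δ) := by
  simp [lg, nh]

lemma contDiff_lg {m : ℕ∞} {f : Cm d → ℂ} {ρ : Cm d → ℝ} {z : Cm d} {δ : ℝ}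
    (hf : AnalyticAt ℂ f z) (hρ : ContDiffAt ℝ m ρ z) (hδ : 0 < δ) :
    ContDiffAt ℝ m (lg f ρ δ) z := by
  have hn : 0 < nh f ρ z + δ := by have := nh_nonneg f ρ z; linarith
  exact ((contDiff_nh hf hρ).add contDiffAt_const).log hn.ne'

lemma Pm_diag {f : Cm d → ℂ} {ρ : Cm d → ℝ} {δ : ℝ} (z : Cm d) (k : Fin d) :
    (Pm f ρ δ z k k).re = cf f ρ δ z * ‖Dc f ρ z k‖ ^ 2 := by
  simp only [Pm, Matrix.smul_apply, Matrix.vecMulVec_apply, smul_eq_mul, Pi.star_apply,
    RCLike.star_def, Complex.mul_conj, Complex.normSq_eq_norm_sq]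
  rw [← Complex.ofReal_mul, Complex.ofReal_re]

/-- `log |f|²` is integrable near a point where `f` is not locally zero, and `f ≠ 0` almost
everywhere -/
theorem exists_log_integrable {f : Cm d → ℂ} {a : Cm d} (hf : AnalyticAt ℂ f a)
    (h0 : ¬ ∀ᶠ z in 𝓝 a, f z = 0) :
    ∃ R > 0, IntegrableOn (fun z => Real.log (‖f z‖ ^ 2)) (ball a R) ∧
      ∀ᵐ z ∂(volume.restrict (ball a R)), f z ≠ 0 := by
  obtain ⟨r, hr, hra⟩ := Metric.eventually_nhds_iff_ball.1 hf.eventually_analyticAt
  set R := r / 5 with hRdef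
  have hR : 0 < R := by positivity
  have han : ∀ z ∈ closedBall a (4 * R), AnalyticAt ℂ f z := fun z hz => hra z (by
    refine closedBall_subset_ball ?_ hz
    rw [hRdef]; linarith)
  have hcont : ContinuousOn f (closedBall a (4 * R)) := fun z hz =>
    (han z hz).continuousAt.continuousWithinAt
  obtain ⟨M, hM⟩ := (isCompact_closedBall a (4 * R)).exists_bound_of_continuousOn hcont
  have hM0 : 0 ≤ M := (norm_nonneg _).trans (hM a (mem_closedBall_self (by positivity)))
  obtain ⟨y, hy, hfy⟩ : ∃ y ∈ closedBall a R, f y ≠ 0 := by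
    by_contra hcon
    push Not at hcon
    exact h0 (Filter.mem_of_superset (closedBall_mem_nhds a hR) fun z hz => hcon z hz)
  set L := Real.log (M ^ 2 + 1) with hL
  set u : ℝ → Cm d → ℝ := fun δ z => lg f (fun _ => 0) δ z - L with hu
  have hupper : ∀ δ, 0 < δ → δ ≤ 1 → ∀ z ∈ closedBall a (4 * R), u δ z ≤ 0 := by
    intro δ hδ hδ1 z hz
    have h1 := hM z hz
    have h2 : ‖f z‖ ^ 2 ≤ M ^ 2 := by gcongr
    simp only [hu, lg_zero, hL]
    have : Real.log (‖f z‖ ^ 2 + δ) ≤ Real.log (M ^ 2 + 1) :=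
      Real.log_le_log (by positivity) (by linarith)
    linarith
  have hLoc : ∀ δ, 0 < δ → δ ≤ 1 → QN.Loc (u δ) a (4 * R) 0 := by
    intro δ hδ hδ1
    refine ⟨fun z hz => ?_, fun z hz k => ?_, hupper δ hδ hδ1⟩
    · exact (contDiff_lg (m := ⊤) (han z hz) contDiffAt_const hδ).sub contDiffAt_const
    · have h2 : ContDiffAt ℝ 2 (lg f (fun _ => 0) δ) z :=
        contDiff_lg (m := 2) (han z hz) contDiffAt_const hδ
      have h3 : cHess (u δ) z = Pm f (fun _ => 0) δ z := by
        simp only [hu]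
        rw [C2.cHess_sub h2 contDiffAt_const, C2.cHess_const, sub_zero,
          cHess_lg (han z hz) contDiffAt_const hδ, C2.cHess_const]
        simp
      rw [h3, Pm_diag]
      have := cf_nonneg (f := f) (ρ := fun _ => 0) hδ.le z
      have : 0 ≤ cf f (fun _ => 0) δ z * ‖Dc f (fun _ => 0) z k‖ ^ 2 := by positivity
      linarith
  set K := QN.locK d R 0 (L - Real.log (‖f y‖ ^ 2)) with hK
  have hint : ∀ δ, 0 < δ → δ ≤ 1 → ∫ z in ball a (2 * R), -u δ z ≤ K := by
    intro δ hδ hδ1
    refine (hLoc δ hδ hδ1).integral_le (QN.subMean d) hR le_rfl hy ?_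
    simp only [hu, lg_zero]
    have h1 : Real.log (‖f y‖ ^ 2) ≤ Real.log (‖f y‖ ^ 2 + δ) :=
      Real.log_le_log (by positivity) (by linarith)
    linarith
  have hsub : ball a (2 * R) ⊆ closedBall a (4 * R) :=
    ball_subset_closedBall.trans (closedBall_subset_closedBall (by linarith))
  have hcu : ∀ δ, 0 < δ → ContinuousOn (u δ) (closedBall a (4 * R)) := by
    intro δ hδ z hz
    exact ((contDiff_lg (m := 0) (han z hz) contDiffAt_const hδ).continuousAt.sub
      continuousAt_const).continuousWithinAt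
  set μ := (volume : Measure (Cm d)).restrict (ball a (2 * R)) with hμ
  set dn : ℕ → ℝ := fun n => 1 / ((n : ℝ) + 1) with hdn
  have hdn0 : ∀ n, 0 < dn n := fun n => by simp only [hdn]; positivity
  have hdn1 : ∀ n, dn n ≤ 1 := fun n => by
    simp only [hdn]
    rw [div_le_one (by positivity)]
    have : (0:ℝ) ≤ n := Nat.cast_nonneg n
    linarith
  have hdnt : Tendsto dn atTop (𝓝 0) := tendsto_one_div_add_atTop_nhds_zero_nat
  have hlint : ∀ n, ∫⁻ z, ENNReal.ofReal (-u (dn n) z) ∂μ ≤ ENNReal.ofReal K := by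
    intro n
    rw [← ofReal_integral_eq_lintegral_ofReal]
    · exact ENNReal.ofReal_le_ofReal (hint _ (hdn0 n) (hdn1 n))
    · exact (((hcu _ (hdn0 n)).integrableOn_compact (isCompact_closedBall a _)).mono_set hsub).neg
    · filter_upwards [self_mem_ae_restrict measurableSet_ball] with z hz
      have := hupper _ (hdn0 n) (hdn1 n) z (hsub hz)
      simpa using this
  have hF : ∫⁻ z, liminf (fun n => ENNReal.ofReal (-u (dn n) z)) atTop ∂μ ≤ ENNReal.ofReal K := by
    refine (lintegral_liminf_le' fun n => ?_).trans ?_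
    · exact ENNReal.measurable_ofReal.comp_aemeasurable
        (((hcu _ (hdn0 n)).mono hsub).aemeasurable measurableSet_ball).neg
    · refine liminf_le_of_le (by isBoundedDefault) fun b hb => ?_
      obtain ⟨n, hn⟩ := hb.exists
      exact hn.trans (hlint n)
  have hmeas : AEMeasurable (fun z => liminf (fun n => ENNReal.ofReal (-u (dn n) z)) atTop) μ := by
    simp only [Filter.liminf_eq_iSup_iInf_of_nat']
    refine AEMeasurable.iSup fun n => AEMeasurable.iInf fun i => ?_
    exact ENNReal.measurable_ofReal.comp_aemeasurable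
      (((hcu _ (hdn0 _)).mono hsub).aemeasurable measurableSet_ball).neg
  have hfin := ae_lt_top' hmeas (hF.trans_lt ENNReal.ofReal_lt_top).ne
  have hne : ∀ᵐ z ∂μ, f z ≠ 0 := by
    filter_upwards [hfin] with z hz hfz
    refine hz.ne ?_
    have ht : Tendsto (fun n => ENNReal.ofReal (-u (dn n) z)) atTop (𝓝 ⊤) := by
      apply ENNReal.tendsto_ofReal_atTop.comp
      have h1 : Tendsto (fun n => Real.log (dn n)) atTop atBot := by
        refine Real.tendsto_log_nhdsGT_zero.comp ?_
        rw [tendsto_nhdsWithin_iff]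
        exact ⟨hdnt, Eventually.of_forall fun n => hdn0 n⟩
      have h2 : (fun n => -u (dn n) z) = fun n => L + -Real.log (dn n) := by
        funext n
        simp only [hu, lg_zero, hfz]
        simp
        ring
      rw [h2]
      exact tendsto_atTop_add_const_left _ _ (tendsto_neg_atBot_atTop.comp h1)
    exact ht.liminf_eq
  have hlim : ∀ᵐ z ∂μ, liminf (fun n => ENNReal.ofReal (-u (dn n) z)) atTop =
      ENNReal.ofReal (L - Real.log (‖f z‖ ^ 2)) := by
    filter_upwards [hne] with z hz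
    refine Tendsto.liminf_eq ?_
    refine ENNReal.tendsto_ofReal ?_
    have h1 : Tendsto (fun n => ‖f z‖ ^ 2 + dn n) atTop (𝓝 (‖f z‖ ^ 2)) := by
      simpa using tendsto_const_nhds.add hdnt
    have h2 := h1.log (by positivity)
    have h3 : (fun n => -u (dn n) z) = fun n => L - Real.log (‖f z‖ ^ 2 + dn n) := by
      funext n
      simp only [hu, lg_zero]
      ring
    rw [h3]
    exact tendsto_const_nhds.sub h2
  rw [lintegral_congr_ae hlim] at hF
  have hfm : AEMeasurable f μ := (hcont.mono hsub).aemeasurable measurableSet_ball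
  have hlm : AEMeasurable (fun z => Real.log (‖f z‖ ^ 2)) μ :=
    Real.measurable_log.comp_aemeasurable (hfm.norm.pow_const 2)
  have hnn : ∀ᵐ z ∂μ, 0 ≤ L - Real.log (‖f z‖ ^ 2) := by
    filter_upwards [self_mem_ae_restrict measurableSet_ball, hne] with z hz hfz
    have h1 := hM z (hsub hz)
    have h2 : ‖f z‖ ^ 2 ≤ M ^ 2 := by gcongr
    have : Real.log (‖f z‖ ^ 2) ≤ Real.log (M ^ 2 + 1) :=
      Real.log_le_log (by positivity) (by linarith)
    rw [hL]; linarith
  have hI : Integrable (fun z => L - Real.log (‖f z‖ ^ 2)) μ := by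
    refine ⟨(aemeasurable_const.sub hlm).aestronglyMeasurable, ?_⟩
    rw [hasFiniteIntegral_iff_ofReal hnn]
    exact hF.trans_lt ENNReal.ofReal_lt_top
  have hIc : Integrable (fun _ : Cm d => L) μ := by
    rw [integrable_const_iff]
    right
    rw [hμ, isFiniteMeasure_restrict]
    exact measure_ball_lt_top.ne
  refine ⟨2 * R, by positivity, ?_, hne⟩
  have := hIc.sub hI
  refine this.congr (Eventually.of_forall fun z => ?_)
  simp

end Vale.Agent.P301.H98
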