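import Vale.Agent.P301.H98.Ibp
import Vale.Agent.P301.H98.L1
import Mathlib.Analysis.Calculus.BumpFunction.FiniteDimension
import Mathlib.Analysis.SpecialFunctions.SmoothTransition

/-! The estimate in one direction. -/

open scoped ContDiff ComplexOrder ComplexConjugate Topology ENNReal
open MeasureTheory Set Filter Metric

noncomputable section

namespace Vale.Agent.P301.H98

open Vale.Agent.P272.K

variable {d : ℕ}

/-- the part of the positive part in the direction `v` -/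
def gv (f : Cm d → ℂ) (ρ : Cm d → ℝ) (δ : ℝ) (v : Cm d) (z : Cm d) : ℝ :=
  cf f ρ δ z * ‖∑ j, v j * Dc f ρ z j‖ ^ 2

lemma gv_nonneg {f : Cm d → ℂ} {ρ : Cm d → ℝ} {δ : ℝ} (hδ : 0 ≤ δ) (v z : Cm d) :
    0 ≤ gv f ρ δ v z := mul_nonneg (cf_nonneg hδ z) (by positivity)

/-- the Levi form of `log (|f|² e^{-ρ} + δ)` -/
lemma lv_lg {f : Cm d → ℂ} {ρ : Cm d → ℝ} {z : Cm d} {δ : ℝ} (hf : AnalyticAt ℂ f z)
    (hρ : ContDiffAt ℝ 2 ρ z) (hδ : 0 < δ) (v : Cm d) :
    lv v (lg f ρ δ) z = (gv f ρ δ v z : ℂ) -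
      ((nh f ρ z / (nh f ρ z + δ) : ℝ) : ℂ) * lv v ρ z := by
  unfold lv
  rw [cHess_lg hf hρ hδ]
  have e1 : (gv f ρ δ v z : ℂ) =
      ∑ j, ∑ k, v j * conj (v k) * Pm f ρ δ z j k := by
    unfold gv
    have h2 : ((‖∑ j, v j * Dc f ρ z j‖ ^ 2 : ℝ) : ℂ) =
        (∑ j, v j * Dc f ρ z j) * conj (∑ j, v j * Dc f ρ z j) := by
      rw [Complex.mul_conj, Complex.normSq_eq_norm_sq]
    rw [Complex.ofReal_mul, h2, map_sum, Finset.sum_mul_sum, Finset.mul_sum]
    refine Finset.sum_congr rfl fun j _ => ?_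
    rw [Finset.mul_sum]
    refine Finset.sum_congr rfl fun k _ => ?_
    simp only [Pm, Matrix.smul_apply, Matrix.vecMulVec_apply, smul_eq_mul, Pi.star_apply,
      RCLike.star_def, map_mul]
    ring
  rw [e1, Finset.mul_sum, ← Finset.sum_sub_distrib]
  refine Finset.sum_congr rfl fun j _ => ?_
  rw [Finset.mul_sum, ← Finset.sum_sub_distrib]
  refine Finset.sum_congr rfl fun k _ => ?_
  simp only [Matrix.sub_apply, Matrix.smul_apply, smul_eq_mul]
  ring

/-- the local situation -/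
structure Loc2 (f₁ f₂ : Cm d → ℂ) (ρ₁ ρ₂ : Cm d → ℝ) (a : Cm d) (R : ℝ) : Prop where
  hR : 0 < R
  f1 : ∀ z ∈ ball a (3 * R), AnalyticAt ℂ f₁ z
  f2 : ∀ z ∈ ball a (3 * R), AnalyticAt ℂ f₂ z
  r1 : ∀ z ∈ ball a (3 * R), ContDiffAt ℝ ∞ ρ₁ z
  r2 : ∀ z ∈ ball a (3 * R), ContDiffAt ℝ ∞ ρ₂ z
  int : IntegrableOn (fun z => Real.log (‖f₁ z‖ ^ 2)) (ball a (3 * R))
  ne : ∀ᵐ z ∂(volume.restrict (ball a (3 * R))), f₁ z ≠ 0

variable {f₁ f₂ : Cm d → ℂ} {ρ₁ ρ₂ : Cm d → ℝ} {a : Cm d} {R : ℝ}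

lemma Loc2.mono (h : Loc2 f₁ f₂ ρ₁ ρ₂ a R) {R' : ℝ} (h0 : 0 < R') (hR' : R' ≤ R) :
    Loc2 f₁ f₂ ρ₁ ρ₂ a R' := by
  have hs : ball a (3 * R') ⊆ ball a (3 * R) := ball_subset_ball (by linarith)
  exact ⟨h0, fun z hz => h.f1 z (hs hz), fun z hz => h.f2 z (hs hz), fun z hz => h.r1 z (hs hz),
    fun z hz => h.r2 z (hs hz), h.int.mono_set hs, ae_restrict_of_ae_restrict_of_subset hs h.ne⟩

lemma Loc2.sub (h : Loc2 f₁ f₂ ρ₁ ρ₂ a R) : closedBall a (2 * R) ⊆ ball a (3 * R) :=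
  closedBall_subset_ball (by have := h.hR; linarith)

/-- the bump function -/
def bmp (a : Cm d) (R : ℝ) (hR : 0 < R) : ContDiffBump a := ⟨R, 2 * R, hR, by linarith⟩

lemma continuousAt_Dc {f : Cm d → ℂ} {ρ : Cm d → ℝ} {z : Cm d} (hf : AnalyticAt ℂ f z)
    (hρ : ContDiffAt ℝ ∞ ρ z) (j : Fin d) : ContinuousAt (fun y => Dc f ρ y j) z := by
  unfold Dc
  have h1 : ContDiffAt ℝ 0 (dz j f) z :=
    C2.contDiffAt_dz j (contDiff_f (m := 1) hf) (by norm_num)
  have h2 : ContDiffAt ℝ 0 (dz j fun y => (ρ y : ℂ)) z :=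
    C2.contDiffAt_dz j (C2.contDiffAt_ofReal hρ) (by norm_num)
  exact h1.continuousAt.sub (hf.continuousAt.mul h2.continuousAt)

lemma continuousAt_nh {f : Cm d → ℂ} {ρ : Cm d → ℝ} {z : Cm d} (hf : AnalyticAt ℂ f z)
    (hρ : ContDiffAt ℝ ∞ ρ z) : ContinuousAt (nh f ρ) z :=
  (contDiff_nh (m := 0) hf (hρ.of_le bot_le)).continuousAt

lemma continuousAt_cf {f : Cm d → ℂ} {ρ : Cm d → ℝ} {δ : ℝ} {z : Cm d} (hf : AnalyticAt ℂ f z)
    (hρ : ContDiffAt ℝ ∞ ρ z) (hδ : 0 < δ) : ContinuousAt (cf f ρ δ) z := by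
  unfold cf
  have hn : 0 < nh f ρ z + δ := by have := nh_nonneg f ρ z; linarith
  refine (continuousAt_const.mul (Real.continuous_exp.continuousAt.comp hρ.continuousAt.neg)).div
    (((continuousAt_nh hf hρ).add continuousAt_const).pow 2) (by positivity)

lemma continuousAt_gv {f : Cm d → ℂ} {ρ : Cm d → ℝ} {δ : ℝ} {z : Cm d} (hf : AnalyticAt ℂ f z)
    (hρ : ContDiffAt ℝ ∞ ρ z) (hδ : 0 < δ) (v : Cm d) : ContinuousAt (gv f ρ δ v) z := by
  unfold gv
  refine (continuousAt_cf hf hρ hδ).mul (ContinuousAt.pow (ContinuousAt.norm ?_) 2)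
  exact tendsto_finsetSum _ fun j _ => continuousAt_const.mul (continuousAt_Dc hf hρ j)

/-- the mass bound -/
theorem mass (h : Loc2 f₁ f₂ ρ₁ ρ₂ a R) (v : Cm d) :
    ∃ W : Cm d → ℝ, IntegrableOn W (closedBall a (2 * R)) ∧
      ∀ ψ : Cm d → ℝ, (∀ z ∈ ball a (3 * R), ContDiffAt ℝ ∞ ψ z) →
        (∀ z ∈ ball a (3 * R), dv v (fun y => (ψ y : ℂ)) z = 0) → (∀ z, 0 ≤ ψ z) →
        (∀ z, ψ z ≤ 1) → ∀ δ, 0 < δ → δ ≤ 1 →
        ∫ z in closedBall a (2 * R), bmp a R h.hR z * ψ z * gv f₁ ρ₁ δ v z ≤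
          ∫ z in closedBall a (2 * R), ψ z * W z := by
  set χ : Cm d → ℝ := fun z => bmp a R h.hR z with hχdef
  have hχs : ContDiff ℝ ∞ χ := (bmp a R h.hR).contDiff
  have hts : tsupport χ = closedBall a (2 * R) := (bmp a R h.hR).tsupport_eq
  have hcs : HasCompactSupport χ := (bmp a R h.hR).hasCompactSupport
  have hK : IsCompact (closedBall a (2 * R)) := isCompact_closedBall a _
  have hsub := h.sub
  -- bounds
  obtain ⟨C1, hC1⟩ := hK.exists_bound_of_continuousOn (f := lv v χ) (by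
    intro z hz
    refine ContinuousAt.continuousWithinAt ?_
    unfold lv
    exact tendsto_finsetSum _ fun j _ => tendsto_finsetSum _ fun k _ =>
      continuousAt_const.mul (INT.smooth_cHess hχs.contDiffAt j k).continuousAt)
  obtain ⟨C3, hC3⟩ := hK.exists_bound_of_continuousOn (f := lv v ρ₁) (by
    intro z hz
    refine ContinuousAt.continuousWithinAt ?_
    unfold lv
    exact tendsto_finsetSum _ fun j _ => tendsto_finsetSum _ fun k _ =>
      continuousAt_const.mul (INT.smooth_cHess (h.r1 z (hsub hz)) j k).continuousAt)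
  obtain ⟨C4, hC4⟩ := hK.exists_bound_of_continuousOn (f := ρ₁) (fun z hz =>
    (h.r1 z (hsub hz)).continuousAt.continuousWithinAt)
  obtain ⟨C5, hC5⟩ := hK.exists_bound_of_continuousOn (f := nh f₁ ρ₁) (fun z hz =>
    (continuousAt_nh (h.f1 z (hsub hz)) (h.r1 z (hsub hz))).continuousWithinAt)
  have hC10 : 0 ≤ C1 := (norm_nonneg _).trans (hC1 a (mem_closedBall_self (by have := h.hR; positivity)))
  set W : Cm d → ℝ := fun z => C1 * (|Real.log (‖f₁ z‖ ^ 2)| + (C4 + C5)) + C3 with hW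
  have hWi : IntegrableOn W (closedBall a (2 * R)) := by
    have h1 : IntegrableOn (fun z => |Real.log (‖f₁ z‖ ^ 2)|) (closedBall a (2 * R)) :=
      (h.int.mono_set hsub).abs
    have hc : ∀ c : ℝ, IntegrableOn (fun _ : Cm d => c) (closedBall a (2 * R)) := fun c =>
      integrableOn_const hK.measure_lt_top.ne
    exact ((h1.add (hc (C4 + C5))).const_mul C1).add (hc C3)
  refine ⟨W, hWi, ?_⟩
  intro ψ hψ hψv hψ0 hψ1 δ hδ hδ1
  have hu : ∀ z ∈ ball a (3 * R), ContDiffAt ℝ ∞ (lg f₁ ρ₁ δ) z := fun z hz =>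
    contDiff_lg (m := ⊤) (h.f1 z hz) (h.r1 z hz) hδ
  have hparts := integral_parts (U := ball a (3 * R)) (v := v) hχs hcs (by rw [hts]; exact hsub)
    hψ hu hψv
  set α : Cm d → ℝ := fun z => nh f₁ ρ₁ z / (nh f₁ ρ₁ z + δ) with hα
  have hα0 : ∀ z, 0 ≤ α z := fun z => by
    have := nh_nonneg f₁ ρ₁ z
    simp only [hα]; positivity
  have hα1 : ∀ z, α z ≤ 1 := fun z => by
    have := nh_nonneg f₁ ρ₁ z
    simp only [hα]
    rw [div_le_one (by linarith)]; linarith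
  have hχ0 : ∀ z, 0 ≤ χ z := fun z => (bmp a R h.hR).nonneg
  have hχ1 : ∀ z, χ z ≤ 1 := fun z => (bmp a R h.hR).le_one
  have hχz : ∀ z, z ∉ closedBall a (2 * R) → χ z = 0 := fun z hz =>
    image_eq_zero_of_notMem_tsupport (by rw [hts]; exact hz)
  have hlz : ∀ z, z ∉ closedBall a (2 * R) → lv v χ z = 0 := fun z hz => by
    unfold lv
    rw [INT.cHess_zero_of_notMem (by rw [hts]; exact hz)]; simp
  -- continuity facts on the compact ball
  have cχ : ∀ z, ContinuousAt χ z := fun z => hχs.continuous.continuousAt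
  have clvu : ∀ z ∈ ball a (3 * R), ContinuousAt (lv v (lg f₁ ρ₁ δ)) z := fun z hz => by
    unfold lv
    exact tendsto_finsetSum _ fun j _ => tendsto_finsetSum _ fun k _ =>
      continuousAt_const.mul (INT.smooth_cHess (hu z hz) j k).continuousAt
  have clvρ : ∀ z ∈ ball a (3 * R), ContinuousAt (lv v ρ₁) z := fun z hz => by
    unfold lv
    exact tendsto_finsetSum _ fun j _ => tendsto_finsetSum _ fun k _ =>
      continuousAt_const.mul (INT.smooth_cHess (h.r1 z hz) j k).continuousAt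
  have cα : ∀ z ∈ ball a (3 * R), ContinuousAt α z := fun z hz => by
    have hn := nh_nonneg f₁ ρ₁ z
    exact (continuousAt_nh (h.f1 z hz) (h.r1 z hz)).div
      ((continuousAt_nh (h.f1 z hz) (h.r1 z hz)).add continuousAt_const) (by positivity)
  have iOn : ∀ {F : Cm d → ℝ}, (∀ z ∈ ball a (3 * R), ContinuousAt F z) →
      IntegrableOn F (closedBall a (2 * R)) := fun hF =>
    ContinuousOn.integrableOn_compact hK fun z hz => (hF z (hsub hz)).continuousWithinAt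
  have iOnC : ∀ {F : Cm d → ℂ}, (∀ z ∈ ball a (3 * R), ContinuousAt F z) →
      IntegrableOn F (closedBall a (2 * R)) := fun hF =>
    ContinuousOn.integrableOn_compact hK fun z hz => (hF z (hsub hz)).continuousWithinAt
  -- the identity
  have e1 : ∫ z, ((χ z * ψ z : ℝ) : ℂ) * lv v (lg f₁ ρ₁ δ) z =
      ∫ z in closedBall a (2 * R), ((χ z * ψ z : ℝ) : ℂ) * lv v (lg f₁ ρ₁ δ) z := by
    rw [setIntegral_eq_integral_of_forall_compl_eq_zero]
    intro z hz; rw [hχz z hz]; simp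
  have e2 : ∫ z, ((ψ z * lg f₁ ρ₁ δ z : ℝ) : ℂ) * lv v χ z =
      ∫ z in closedBall a (2 * R), ((ψ z * lg f₁ ρ₁ δ z : ℝ) : ℂ) * lv v χ z := by
    rw [setIntegral_eq_integral_of_forall_compl_eq_zero]
    intro z hz; rw [hlz z hz]; simp
  rw [e1, e2] at hparts
  have c1 : ∀ z ∈ ball a (3 * R),
      ContinuousAt (fun z => ((χ z * ψ z : ℝ) : ℂ) * lv v (lg f₁ ρ₁ δ) z) z := fun z hz =>
    (Complex.continuous_ofReal.continuousAt.comp ((cχ z).mul (hψ z hz).continuousAt)).mul (clvu z hz)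
  have c2 : ∀ z ∈ ball a (3 * R),
      ContinuousAt (fun z => ((χ z * ψ z * α z : ℝ) : ℂ) * lv v ρ₁ z) z := fun z hz =>
    (Complex.continuous_ofReal.continuousAt.comp
      (((cχ z).mul (hψ z hz).continuousAt).mul (cα z hz))).mul (clvρ z hz)
  have c3 : ∀ z ∈ ball a (3 * R),
      ContinuousAt (fun z => ((ψ z * lg f₁ ρ₁ δ z : ℝ) : ℂ) * lv v χ z) z := fun z hz => by
    refine (Complex.continuous_ofReal.continuousAt.comp
      ((hψ z hz).continuousAt.mul (hu z hz).continuousAt)).mul ?_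
    unfold lv
    exact tendsto_finsetSum _ fun j _ => tendsto_finsetSum _ fun k _ =>
      continuousAt_const.mul (INT.smooth_cHess hχs.contDiffAt j k).continuousAt
  have key : ∫ z in closedBall a (2 * R), ((χ z * ψ z * gv f₁ ρ₁ δ v z : ℝ) : ℂ) =
      (∫ z in closedBall a (2 * R), ((ψ z * lg f₁ ρ₁ δ z : ℝ) : ℂ) * lv v χ z) +
      ∫ z in closedBall a (2 * R), ((χ z * ψ z * α z : ℝ) : ℂ) * lv v ρ₁ z := by
    rw [← hparts, ← integral_add (iOnC c1) (iOnC c2)]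
    refine setIntegral_congr_fun measurableSet_closedBall fun z hz => ?_
    rw [lv_lg (h.f1 z (hsub hz)) ((h.r1 z (hsub hz)).of_le (by norm_cast)) hδ]
    simp only [hα]
    push_cast
    ring
  have key2 : ∫ z in closedBall a (2 * R), χ z * ψ z * gv f₁ ρ₁ δ v z =
      (∫ z in closedBall a (2 * R), (((ψ z * lg f₁ ρ₁ δ z : ℝ) : ℂ) * lv v χ z).re) +
      ∫ z in closedBall a (2 * R), (((χ z * ψ z * α z : ℝ) : ℂ) * lv v ρ₁ z).re := by
    have h1 := congrArg Complex.re key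
    rw [Complex.add_re, integral_complex_ofReal] at h1
    have r1 : ∫ z in closedBall a (2 * R), (((ψ z * lg f₁ ρ₁ δ z : ℝ) : ℂ) * lv v χ z).re =
        (∫ z in closedBall a (2 * R), ((ψ z * lg f₁ ρ₁ δ z : ℝ) : ℂ) * lv v χ z).re :=
      Complex.reCLM.integral_comp_comm (iOnC c3)
    have r2 : ∫ z in closedBall a (2 * R), (((χ z * ψ z * α z : ℝ) : ℂ) * lv v ρ₁ z).re =
        (∫ z in closedBall a (2 * R), ((χ z * ψ z * α z : ℝ) : ℂ) * lv v ρ₁ z).re :=
      Complex.reCLM.integral_comp_comm (iOnC c2)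
    rw [r1, r2, ← h1]
    simp
  rw [key2]
  have i3 : IntegrableOn (fun z => (((ψ z * lg f₁ ρ₁ δ z : ℝ) : ℂ) * lv v χ z).re)
      (closedBall a (2 * R)) :=
    iOn fun z hz => Complex.continuous_re.continuousAt.comp (c3 z hz)
  have i2 : IntegrableOn (fun z => (((χ z * ψ z * α z : ℝ) : ℂ) * lv v ρ₁ z).re)
      (closedBall a (2 * R)) :=
    iOn fun z hz => Complex.continuous_re.continuousAt.comp (c2 z hz)
  rw [← integral_add i3 i2]
  refine integral_mono_ae (i3.add i2) ?_ ?_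
  · -- integrability of ψ W
    refine Integrable.bdd_mul (c := 1) hWi ?_ ?_
    · exact (ContinuousOn.aestronglyMeasurable (fun z hz =>
        (hψ z (hsub hz)).continuousAt.continuousWithinAt) measurableSet_closedBall)
    · exact Eventually.of_forall fun z => by
        rw [Real.norm_eq_abs, abs_of_nonneg (hψ0 z)]; exact hψ1 z
  · have hne : ∀ᵐ z ∂(volume.restrict (closedBall a (2 * R))), f₁ z ≠ 0 :=
      ae_restrict_of_ae_restrict_of_subset hsub h.ne
    filter_upwards [self_mem_ae_restrict measurableSet_closedBall, hne] with z hz hfz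
    have b1 : |lg f₁ ρ₁ δ z| ≤ |Real.log (‖f₁ z‖ ^ 2)| + (C4 + C5) := by
      have hnp := nh_pos (ρ := ρ₁) hfz
      have h4 := hC4 z hz
      have h5 := hC5 z hz
      rw [Real.norm_eq_abs] at h4 h5
      rw [abs_of_pos hnp] at h5
      have hlog : Real.log (nh f₁ ρ₁ z) = Real.log (‖f₁ z‖ ^ 2) - ρ₁ z := by
        unfold nh
        rw [Real.log_mul (by positivity) (Real.exp_ne_zero _), Real.log_exp]; ring
      have u1 : lg f₁ ρ₁ δ z ≤ C5 := by
        unfold lg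
        have := Real.log_le_sub_one_of_pos (x := nh f₁ ρ₁ z + δ) (by linarith)
        linarith
      have u2 : Real.log (nh f₁ ρ₁ z) ≤ lg f₁ ρ₁ δ z := by
        unfold lg
        exact Real.log_le_log hnp (by linarith)
      have u3 := neg_abs_le (Real.log (‖f₁ z‖ ^ 2))
      have u4 := le_abs_self (ρ₁ z)
      have u5 := abs_nonneg (Real.log (‖f₁ z‖ ^ 2))
      have u6 : 0 ≤ C4 := (abs_nonneg _).trans h4
      have u7 : 0 ≤ C5 := hnp.le.trans h5
      rw [abs_le]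
      constructor <;> linarith
    have b2 : (((ψ z * lg f₁ ρ₁ δ z : ℝ) : ℂ) * lv v χ z).re ≤
        ψ z * (C1 * (|Real.log (‖f₁ z‖ ^ 2)| + (C4 + C5))) := by
      refine (Complex.re_le_norm _).trans ?_
      rw [norm_mul, Complex.norm_real, Real.norm_eq_abs, abs_mul, abs_of_nonneg (hψ0 z), mul_assoc]
      refine mul_le_mul_of_nonneg_left ?_ (hψ0 z)
      rw [mul_comm C1]
      exact mul_le_mul b1 (hC1 z hz) (norm_nonneg _) ((abs_nonneg _).trans b1)
    have b3 : (((χ z * ψ z * α z : ℝ) : ℂ) * lv v ρ₁ z).re ≤ ψ z * C3 := by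
      refine (Complex.re_le_norm _).trans ?_
      have hC30 := (norm_nonneg _).trans (hC3 z hz)
      rw [norm_mul, Complex.norm_real, Real.norm_eq_abs,
        abs_of_nonneg (mul_nonneg (mul_nonneg (hχ0 z) (hψ0 z)) (hα0 z))]
      refine mul_le_mul ?_ (hC3 z hz) (norm_nonneg _) (hψ0 z)
      calc χ z * ψ z * α z ≤ 1 * ψ z * 1 := by
            refine mul_le_mul (mul_le_mul_of_nonneg_right (hχ1 z) (hψ0 z)) (hα1 z) (hα0 z) ?_
            rw [one_mul]; exact hψ0 z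
        _ = ψ z := by ring
    simp only [hW]
    calc _ ≤ ψ z * (C1 * (|Real.log (‖f₁ z‖ ^ 2)| + (C4 + C5))) + ψ z * C3 := add_le_add b2 b3
      _ = _ := by ring

end Vale.Agent.P301.H98
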