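import Vale.Agent.P301.H98.Dir

/-! The estimate in one direction: conclusion. -/

open scoped ContDiff ComplexOrder ComplexConjugate Topology ENNReal
open MeasureTheory Set Filter Metric

noncomputable section

namespace Vale.Agent.P301.H98

open Vale.Agent.P272.K

variable {d : ℕ}

/-- the cutoff of `{|r| small}` -/
def cut (r : Cm d → ℂ) (τ : ℝ) (z : Cm d) : ℝ :=
  Real.smoothTransition (2 - nh r (fun _ => 0) z / τ ^ 2)

lemma cut_nonneg (r : Cm d → ℂ) (τ : ℝ) (z : Cm d) : 0 ≤ cut r τ z :=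
  Real.smoothTransition.nonneg _

lemma cut_le_one (r : Cm d → ℂ) (τ : ℝ) (z : Cm d) : cut r τ z ≤ 1 :=
  Real.smoothTransition.le_one _

lemma cut_eq_one {r : Cm d → ℂ} {τ : ℝ} {z : Cm d} (hτ : 0 < τ) (h : ‖r z‖ ≤ τ) :
    cut r τ z = 1 := by
  refine Real.smoothTransition.one_of_one_le ?_
  have h1 : nh r (fun _ => 0) z = ‖r z‖ ^ 2 := by simp [nh]
  have h2 : ‖r z‖ ^ 2 / τ ^ 2 ≤ 1 := by
    rw [div_le_one (by positivity)]; gcongr
  rw [h1]; linarith

lemma cut_eq_zero {r : Cm d → ℂ} {τ : ℝ} {z : Cm d} (hτ : 0 < τ) (h : 2 * τ ^ 2 ≤ ‖r z‖ ^ 2) :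
    cut r τ z = 0 := by
  refine Real.smoothTransition.zero_of_nonpos ?_
  have h1 : nh r (fun _ => 0) z = ‖r z‖ ^ 2 := by simp [nh]
  have h2 : 2 ≤ ‖r z‖ ^ 2 / τ ^ 2 := by
    rw [le_div_iff₀ (by positivity)]; exact h
  rw [h1]; linarith

lemma contDiff_cut {r : Cm d → ℂ} {τ : ℝ} {z : Cm d} (hr : AnalyticAt ℂ r z) :
    ContDiffAt ℝ ∞ (cut r τ) z := by
  unfold cut
  exact Real.smoothTransition.contDiffAt.comp z
    (contDiffAt_const.sub ((contDiff_nh (m := ⊤) hr contDiffAt_const).div_const _))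

lemma dv_cut {r : Cm d → ℂ} {τ : ℝ} {z v : Cm d} (hr : AnalyticAt ℂ r z) (hv : dv v r z = 0) :
    dv v (fun y => (cut r τ y : ℂ)) z = 0 := by
  have hn : DifferentiableAt ℝ (nh r fun _ => 0) z :=
    (contDiff_nh (m := 1) hr contDiffAt_const).differentiableAt (by norm_num)
  set S : ℝ → ℝ := fun t => Real.smoothTransition (2 - t / τ ^ 2) with hS
  have hSd : HasDerivAt S (deriv S (nh r (fun _ => 0) z)) (nh r (fun _ => 0) z) := by
    refine DifferentiableAt.hasDerivAt ?_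
    have h1 : ContDiff ℝ 1 S := by
      refine Real.smoothTransition.contDiff.comp ?_
      exact contDiff_const.sub (contDiff_id.div_const _)
    exact h1.differentiable (by norm_num) _
  have h1 : ∀ j, dz j (fun y => (cut r τ y : ℂ)) z =
      ((deriv S (nh r (fun _ => 0) z) : ℝ) : ℂ) * (conj (r z) * dz j r z) := by
    intro j
    have := C2.dz_comp_real (ψ := S) j hSd hn
    have e : (fun y => (cut r τ y : ℂ)) = fun y => ((S (nh r (fun _ => 0) y) : ℝ) : ℂ) := rfl
    rw [e, this, dz_nh hr (differentiableAt_const _)]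
    simp [Dc]
  unfold dv at hv ⊢
  calc ∑ j, v j * dz j (fun y => (cut r τ y : ℂ)) z =
      ∑ j, (((deriv S (nh r (fun _ => 0) z) : ℝ) : ℂ) * conj (r z)) * (v j * dz j r z) :=
        Finset.sum_congr rfl fun j _ => by rw [h1]; ring
    _ = 0 := by rw [← Finset.mul_sum, hv, mul_zero]

variable {f₁ f₂ : Cm d → ℂ} {ρ₁ ρ₂ : Cm d → ℝ} {a : Cm d} {R : ℝ}

/-- `δ / (|f|² e^{-ρ} + δ)` -/
def al (f : Cm d → ℂ) (ρ : Cm d → ℝ) (δ : ℝ) (z : Cm d) : ℝ := δ / (nh f ρ z + δ)

lemma al_nonneg {f : Cm d → ℂ} {ρ : Cm d → ℝ} {δ : ℝ} (hδ : 0 ≤ δ) (z : Cm d) :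
    0 ≤ al f ρ δ z := by
  have := nh_nonneg f ρ z
  unfold al; positivity

lemma al_le_one {f : Cm d → ℂ} {ρ : Cm d → ℝ} {δ : ℝ} (hδ : 0 < δ) (z : Cm d) :
    al f ρ δ z ≤ 1 := by
  have := nh_nonneg f ρ z
  unfold al
  rw [div_le_one (by linarith)]; linarith

lemma continuousAt_al {f : Cm d → ℂ} {ρ : Cm d → ℝ} {δ : ℝ} {z : Cm d} (hf : AnalyticAt ℂ f z)
    (hρ : ContDiffAt ℝ ∞ ρ z) (hδ : 0 < δ) : ContinuousAt (al f ρ δ) z := by
  have hn := nh_nonneg f ρ z
  unfold al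
  exact continuousAt_const.div ((continuousAt_nh hf hρ).add continuousAt_const) (by positivity)

/-- the estimate in the direction `v` -/
theorem dir_est (h : Loc2 f₁ f₂ ρ₁ ρ₂ a R) {v : Cm d} {A B r : Cm d → ℂ}
    (hA : ∀ z ∈ ball a (3 * R), ContinuousAt A z) (hB : ∀ z ∈ ball a (3 * R), ContinuousAt B z)
    (hr : ∀ z ∈ ball a (3 * R), AnalyticAt ℂ r z)
    (hrel : ∀ z ∈ ball a (3 * R), r z = A z * f₁ z + B z * f₂ z)
    (hrv : ∀ z ∈ ball a (3 * R), dv v r z = 0)
    (hrne : ∀ᵐ z ∂(volume.restrict (ball a (3 * R))), r z ≠ 0) :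
    ∀ η : ℝ, 0 < η → ∀ᶠ δ' in 𝓝[>] (0:ℝ), ∀ᶠ δ in 𝓝[>] (0:ℝ),
      ∫ z in ball a R, al f₂ ρ₂ δ' z * gv f₁ ρ₁ δ v z ≤ η := by
  intro η hη
  have hR := h.hR
  have hK : IsCompact (closedBall a (2 * R)) := isCompact_closedBall a _
  have hsub := h.sub
  have haK : a ∈ closedBall a (2 * R) := mem_closedBall_self (by positivity)
  set χ : Cm d → ℝ := fun z => bmp a R h.hR z with hχdef
  have hχs : ContDiff ℝ ∞ χ := (bmp a R h.hR).contDiff
  have hχ0 : ∀ z, 0 ≤ χ z := fun z => (bmp a R h.hR).nonneg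
  have hχ1 : ∀ z, χ z ≤ 1 := fun z => (bmp a R h.hR).le_one
  have hχR : ∀ z ∈ ball a R, χ z = 1 := fun z hz =>
    (bmp a R h.hR).one_of_mem_closedBall (ball_subset_closedBall hz)
  obtain ⟨W, hWi, hW⟩ := mass h v
  -- choice of τ
  obtain ⟨τ, hτ, hτW⟩ : ∃ τ > 0, ∫ z in closedBall a (2 * R), cut r τ z * W z ≤ η / 3 := by
    have ht : Tendsto (fun τ : ℝ => ∫ z in closedBall a (2 * R), cut r τ z * W z) (𝓝[>] 0)
        (𝓝 (∫ z in closedBall a (2 * R), (0:ℝ))) := by
      refine tendsto_integral_filter_of_dominated_convergence (fun z => |W z|) ?_ ?_ hWi.abs ?_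
      · refine Eventually.of_forall fun τ => ?_
        refine AEStronglyMeasurable.mul ?_ hWi.aestronglyMeasurable
        exact ContinuousOn.aestronglyMeasurable (fun z hz =>
          (contDiff_cut (hr z (hsub hz))).continuousAt.continuousWithinAt) measurableSet_closedBall
      · refine Eventually.of_forall fun τ => Eventually.of_forall fun z => ?_
        rw [Real.norm_eq_abs, abs_mul, abs_of_nonneg (cut_nonneg r τ z)]
        exact mul_le_of_le_one_left (abs_nonneg _) (cut_le_one r τ z)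
      · have hne : ∀ᵐ z ∂(volume.restrict (closedBall a (2 * R))), r z ≠ 0 :=
          ae_restrict_of_ae_restrict_of_subset hsub hrne
        filter_upwards [hne] with z hz
        refine tendsto_const_nhds.congr' ?_
        have h1 : 0 < ‖r z‖ / 2 := by positivity
        filter_upwards [Ioo_mem_nhdsGT h1] with τ hτ
        rw [cut_eq_zero hτ.1, zero_mul]
        have h2 := hτ.2
        have h3 := hτ.1
        have h4 : τ ^ 2 ≤ (‖r z‖ / 2) ^ 2 := by gcongr
        nlinarith [norm_nonneg (r z)]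
    rw [integral_zero] at ht
    have h1 := ((tendsto_order.1 ht).2 (η / 3) (by positivity)).and self_mem_nhdsWithin
    obtain ⟨τ, h2, h3⟩ := h1.exists
    exact ⟨τ, h3, h2.le⟩
  -- constants
  obtain ⟨MA, hMA⟩ := hK.exists_bound_of_continuousOn (f := A) fun z hz =>
    (hA z (hsub hz)).continuousWithinAt
  obtain ⟨MB, hMB⟩ := hK.exists_bound_of_continuousOn (f := B) fun z hz =>
    (hB z (hsub hz)).continuousWithinAt
  obtain ⟨E1, hE1⟩ := hK.exists_bound_of_continuousOn (f := ρ₁) fun z hz =>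
    (h.r1 z (hsub hz)).continuousAt.continuousWithinAt
  obtain ⟨E2, hE2⟩ := hK.exists_bound_of_continuousOn (f := ρ₂) fun z hz =>
    (h.r2 z (hsub hz)).continuousAt.continuousWithinAt
  obtain ⟨CD, hCD⟩ := hK.exists_bound_of_continuousOn (f := fun z => ∑ j, v j * Dc f₁ ρ₁ z j)
    fun z hz => ContinuousAt.continuousWithinAt (tendsto_finsetSum _ fun j _ =>
      continuousAt_const.mul (continuousAt_Dc (h.f1 z (hsub hz)) (h.r1 z (hsub hz)) j))
  set M := 1 + MA + MB with hM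
  have hMA0 : 0 ≤ MA := (norm_nonneg _).trans (hMA a haK)
  have hMB0 : 0 ≤ MB := (norm_nonneg _).trans (hMB a haK)
  have hM0 : 0 < M := by positivity
  set σ := τ / (2 * M) with hσ
  have hσ0 : 0 < σ := by positivity
  set K₂ := Real.exp E2 / σ ^ 2 with hK2
  set K₁ := Real.exp E1 * (Real.exp E1) ^ 2 / σ ^ 4 * CD ^ 2 with hK1
  -- pointwise estimate
  have hpt : ∀ δ', 0 < δ' → ∀ δ, 0 < δ → ∀ z ∈ closedBall a (2 * R),
      χ z * (al f₂ ρ₂ δ' z * gv f₁ ρ₁ δ v z) ≤ χ z * cut r τ z * gv f₁ ρ₁ δ v z +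
        (δ' * K₂) * (χ z * 1 * gv f₁ ρ₁ δ v z) + δ * K₁ := by
    intro δ' hδ' δ hδ z hz
    have g0 := gv_nonneg (f := f₁) (ρ := ρ₁) hδ.le v z
    have a0 := al_nonneg (f := f₂) (ρ := ρ₂) hδ'.le z
    have a1 := al_le_one (f := f₂) (ρ := ρ₂) hδ' z
    have c0 := cut_nonneg r τ z
    have hK20 : 0 ≤ K₂ := by positivity
    have hK10 : 0 ≤ K₁ := by positivity
    by_cases hcase : ‖r z‖ ≤ τ
    · rw [cut_eq_one hτ hcase]
      have h1 : χ z * (al f₂ ρ₂ δ' z * gv f₁ ρ₁ δ v z) ≤ χ z * 1 * gv f₁ ρ₁ δ v z := by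
        rw [mul_one]
        exact mul_le_mul_of_nonneg_left (mul_le_of_le_one_left g0 a1) (hχ0 z)
      have h2 : 0 ≤ (δ' * K₂) * (χ z * 1 * gv f₁ ρ₁ δ v z) := by
        have := hχ0 z; positivity
      have h3 : 0 ≤ δ * K₁ := by positivity
      linarith
    · push Not at hcase
      have hrz := hrel z (hsub hz)
      have h4 : ‖r z‖ ≤ M * (‖f₁ z‖ + ‖f₂ z‖) := by
        rw [hrz]
        refine (norm_add_le _ _).trans ?_
        rw [norm_mul, norm_mul]
        have b1 := hMA z hz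
        have b2 := hMB z hz
        have b3 : ‖A z‖ * ‖f₁ z‖ ≤ M * ‖f₁ z‖ :=
          mul_le_mul_of_nonneg_right (by rw [hM]; linarith) (norm_nonneg _)
        have b4 : ‖B z‖ * ‖f₂ z‖ ≤ M * ‖f₂ z‖ :=
          mul_le_mul_of_nonneg_right (by rw [hM]; linarith) (norm_nonneg _)
        linarith
      have h5 : σ ≤ ‖f₁ z‖ ∨ σ ≤ ‖f₂ z‖ := by
        by_contra hcon
        push Not at hcon
        have : M * (‖f₁ z‖ + ‖f₂ z‖) < M * (σ + σ) :=
          mul_lt_mul_of_pos_left (by linarith [hcon.1, hcon.2]) hM0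
        have e : M * (σ + σ) = τ := by rw [hσ]; field_simp; ring
        linarith
      have t1 : 0 ≤ χ z * cut r τ z * gv f₁ ρ₁ δ v z := by
        have := hχ0 z; positivity
      rcases h5 with h5 | h5
      · -- `|f₁|` is large
        have hn : σ ^ 2 * Real.exp (-E1) ≤ nh f₁ ρ₁ z := by
          unfold nh
          have := hE1 z hz
          rw [Real.norm_eq_abs] at this
          have := (abs_le.1 this).2
          gcongr
        have hcf : cf f₁ ρ₁ δ z ≤ δ * (Real.exp E1 * (Real.exp E1) ^ 2 / σ ^ 4) := by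
          unfold cf
          have e1 : Real.exp (-ρ₁ z) ≤ Real.exp E1 := by
            have := hE1 z hz
            rw [Real.norm_eq_abs] at this
            have := (abs_le.1 this).1
            gcongr; linarith
          have e2 : (σ ^ 2 * Real.exp (-E1)) ^ 2 ≤ (nh f₁ ρ₁ z + δ) ^ 2 := by
            gcongr; linarith
          have e3 : 0 < σ ^ 2 * Real.exp (-E1) := by positivity
          calc δ * Real.exp (-ρ₁ z) / (nh f₁ ρ₁ z + δ) ^ 2 ≤
              δ * Real.exp E1 / (σ ^ 2 * Real.exp (-E1)) ^ 2 := by gcongr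
            _ = δ * (Real.exp E1 * (Real.exp E1) ^ 2 / σ ^ 4) := by
                rw [Real.exp_neg]; field_simp
        have hg : gv f₁ ρ₁ δ v z ≤ δ * K₁ := by
          unfold gv
          have b := hCD z hz
          calc cf f₁ ρ₁ δ z * ‖∑ j, v j * Dc f₁ ρ₁ z j‖ ^ 2 ≤
              (δ * (Real.exp E1 * (Real.exp E1) ^ 2 / σ ^ 4)) * CD ^ 2 := by
                have := cf_nonneg (f := f₁) (ρ := ρ₁) hδ.le z
                gcongr
            _ = δ * K₁ := by rw [hK1]; ring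
        have t2 : χ z * (al f₂ ρ₂ δ' z * gv f₁ ρ₁ δ v z) ≤ δ * K₁ := by
          calc χ z * (al f₂ ρ₂ δ' z * gv f₁ ρ₁ δ v z) ≤ 1 * (1 * gv f₁ ρ₁ δ v z) :=
                mul_le_mul (hχ1 z) (mul_le_mul_of_nonneg_right a1 g0) (by positivity) zero_le_one
            _ ≤ δ * K₁ := by rw [one_mul, one_mul]; exact hg
        have t3 : 0 ≤ (δ' * K₂) * (χ z * 1 * gv f₁ ρ₁ δ v z) := by
          have := hχ0 z; positivity
        linarith
      · -- `|f₂|` is large
        have hn : σ ^ 2 * Real.exp (-E2) ≤ nh f₂ ρ₂ z := by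
          unfold nh
          have := hE2 z hz
          rw [Real.norm_eq_abs] at this
          have := (abs_le.1 this).2
          gcongr
        have e3 : 0 < σ ^ 2 * Real.exp (-E2) := by positivity
        have hal : al f₂ ρ₂ δ' z ≤ δ' * K₂ := by
          unfold al
          calc δ' / (nh f₂ ρ₂ z + δ') ≤ δ' / (σ ^ 2 * Real.exp (-E2)) := by
                gcongr; linarith
            _ = δ' * K₂ := by rw [hK2, Real.exp_neg]; field_simp
        have t2 : χ z * (al f₂ ρ₂ δ' z * gv f₁ ρ₁ δ v z) ≤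
            (δ' * K₂) * (χ z * 1 * gv f₁ ρ₁ δ v z) := by
          calc χ z * (al f₂ ρ₂ δ' z * gv f₁ ρ₁ δ v z) =
              al f₂ ρ₂ δ' z * (χ z * 1 * gv f₁ ρ₁ δ v z) := by ring
            _ ≤ _ := by
                refine mul_le_mul_of_nonneg_right hal ?_
                have := hχ0 z; positivity
        have t3 : 0 ≤ δ * K₁ := by positivity
        linarith
  -- integrate
  set I₀ := ∫ z in closedBall a (2 * R), (1:ℝ) * W z with hI0
  set V := (volume : Measure (Cm d)).real (closedBall a (2 * R)) with hV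
  have iOn : ∀ {F : Cm d → ℝ}, (∀ z ∈ ball a (3 * R), ContinuousAt F z) →
      IntegrableOn F (closedBall a (2 * R)) := fun hF =>
    ContinuousOn.integrableOn_compact hK fun z hz => (hF z (hsub hz)).continuousWithinAt
  have hmain : ∀ δ', 0 < δ' → ∀ δ, 0 < δ → δ ≤ 1 →
      ∫ z in ball a R, al f₂ ρ₂ δ' z * gv f₁ ρ₁ δ v z ≤ η / 3 + (δ' * K₂) * I₀ + δ * K₁ * V := by
    intro δ' hδ' δ hδ hδ1
    have cg : ∀ z ∈ ball a (3 * R), ContinuousAt (gv f₁ ρ₁ δ v) z := fun z hz =>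
      continuousAt_gv (h.f1 z hz) (h.r1 z hz) hδ v
    have ca : ∀ z ∈ ball a (3 * R), ContinuousAt (al f₂ ρ₂ δ') z := fun z hz =>
      continuousAt_al (h.f2 z hz) (h.r2 z hz) hδ'
    have cc : ∀ z ∈ ball a (3 * R), ContinuousAt (cut r τ) z := fun z hz =>
      (contDiff_cut (hr z hz)).continuousAt
    have cχ : ∀ z, ContinuousAt χ z := fun z => hχs.continuous.continuousAt
    have i0 : IntegrableOn (fun z => χ z * (al f₂ ρ₂ δ' z * gv f₁ ρ₁ δ v z))
        (closedBall a (2 * R)) := iOn fun z hz => (cχ z).mul ((ca z hz).mul (cg z hz))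
    have i1 : IntegrableOn (fun z => χ z * cut r τ z * gv f₁ ρ₁ δ v z)
        (closedBall a (2 * R)) := iOn fun z hz => ((cχ z).mul (cc z hz)).mul (cg z hz)
    have i2 : IntegrableOn (fun z => (δ' * K₂) * (χ z * 1 * gv f₁ ρ₁ δ v z))
        (closedBall a (2 * R)) :=
      iOn fun z hz => continuousAt_const.mul (((cχ z).mul continuousAt_const).mul (cg z hz))
    have i3 : IntegrableOn (fun _ : Cm d => δ * K₁) (closedBall a (2 * R)) :=
      integrableOn_const hK.measure_lt_top.ne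
    have s1 : ∫ z in ball a R, al f₂ ρ₂ δ' z * gv f₁ ρ₁ δ v z ≤
        ∫ z in closedBall a (2 * R), χ z * (al f₂ ρ₂ δ' z * gv f₁ ρ₁ δ v z) := by
      have e : ∫ z in ball a R, al f₂ ρ₂ δ' z * gv f₁ ρ₁ δ v z =
          ∫ z in ball a R, χ z * (al f₂ ρ₂ δ' z * gv f₁ ρ₁ δ v z) :=
        setIntegral_congr_fun measurableSet_ball fun z hz => by
          show _ = χ z * _
          rw [hχR z hz, one_mul]
      rw [e]
      refine setIntegral_mono_set i0 ?_ ?_
      · refine Eventually.of_forall fun z => ?_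
        have := al_nonneg (f := f₂) (ρ := ρ₂) hδ'.le z
        have := gv_nonneg (f := f₁) (ρ := ρ₁) hδ.le v z
        have := hχ0 z
        simp only [Pi.zero_apply]; positivity
      · refine Eventually.of_forall fun z hz => ?_
        exact closedBall_subset_closedBall (by linarith) (ball_subset_closedBall hz)
    refine s1.trans ?_
    have s2 : ∫ z in closedBall a (2 * R), χ z * (al f₂ ρ₂ δ' z * gv f₁ ρ₁ δ v z) ≤
        ∫ z in closedBall a (2 * R), (χ z * cut r τ z * gv f₁ ρ₁ δ v z +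
        (δ' * K₂) * (χ z * 1 * gv f₁ ρ₁ δ v z) + δ * K₁) :=
      setIntegral_mono_on i0 ((i1.add i2).add i3) measurableSet_closedBall
        fun z hz => hpt δ' hδ' δ hδ z hz
    refine s2.trans ?_
    have i12 : IntegrableOn (fun z => χ z * cut r τ z * gv f₁ ρ₁ δ v z +
        (δ' * K₂) * (χ z * 1 * gv f₁ ρ₁ δ v z)) (closedBall a (2 * R)) := i1.add i2
    rw [integral_add i12 i3, integral_add i1 i2, integral_const_mul, setIntegral_const,
      smul_eq_mul]
    have m1 := hW (cut r τ) (fun z hz => contDiff_cut (hr z hz))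
      (fun z hz => dv_cut (hr z hz) (hrv z hz)) (cut_nonneg r τ) (cut_le_one r τ) δ hδ hδ1
    have m2 := hW (fun _ => 1) (fun z hz => contDiffAt_const)
      (fun z hz => by
        unfold dv
        exact Finset.sum_eq_zero fun j _ => by
          have : (fun _ : Cm d => (((1:ℝ) : ℝ) : ℂ)) = fun _ => (1:ℂ) := by funext y; simp
          rw [this, C2.dz_const, mul_zero]) (fun _ => zero_le_one) (fun _ => le_rfl) δ hδ hδ1
    have hK20 : 0 ≤ K₂ := by positivity
    have m3 : (δ' * K₂) * ∫ z in closedBall a (2 * R), χ z * 1 * gv f₁ ρ₁ δ v z ≤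
        (δ' * K₂) * I₀ := mul_le_mul_of_nonneg_left m2 (by positivity)
    have m4 := m1.trans hτW
    have e5 : V * (δ * K₁) = δ * K₁ * V := by ring
    rw [← hV, e5]
    linarith
  -- conclusion
  have hI00 : ∀ c : ℝ, ∃ ε > 0, ∀ t, 0 < t → t < ε → t * c ≤ η / 3 := by
    intro c
    refine ⟨η / 3 / (|c| + 1), by positivity, fun t ht htε => ?_⟩
    have h1 : t * c ≤ t * (|c| + 1) :=
      mul_le_mul_of_nonneg_left (by have := le_abs_self c; linarith) ht.le
    have h2 : t * (|c| + 1) ≤ η / 3 / (|c| + 1) * (|c| + 1) :=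
      mul_le_mul_of_nonneg_right htε.le (by positivity)
    have h3 : η / 3 / (|c| + 1) * (|c| + 1) = η / 3 := by field_simp
    linarith
  obtain ⟨ε', hε', h1⟩ := hI00 (K₂ * I₀)
  obtain ⟨ε, hε, h2⟩ := hI00 (K₁ * V)
  filter_upwards [Ioo_mem_nhdsGT hε'] with δ' hδ'
  filter_upwards [Ioo_mem_nhdsGT (lt_min hε one_pos)] with δ hδ
  have h3 := hmain δ' hδ'.1 δ hδ.1 (hδ.2.le.trans (min_le_right _ _))
  have h4 := h1 δ' hδ'.1 hδ'.2
  have h5 := h2 δ hδ.1 (hδ.2.trans_le (min_le_left _ _))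
  have e1 : δ' * K₂ * I₀ = δ' * (K₂ * I₀) := by ring
  have e2 : δ * K₁ * V = δ * (K₁ * V) := by ring
  rw [e1, e2] at h3
  linarith

end Vale.Agent.P301.H98
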