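import Vale.Agent.P301.H724.Rank

/-! # Finitely many sections of pairwise different weights give a proportional pair

If `u₁, …, u_r` are nonzero sections of `V ⊗ L^{m_b}` with pairwise different `m_b` and `r` is
larger than the rank of `V`, then for some `1 ≤ q < r` there are two nonzero pointwise proportional
sections of `Λ^q V ⊗ L^M` for two different values of `M`, both at most `∑ m_b`. -/

open scoped Manifold ContDiff ComplexOrder Topology
open Filter Metric Set

noncomputable section

namespace Vale.Agent.P301.H98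

open Vale.Agent.P272.K Vale.Agent.P301.H599 Vale.Agent.P301.H724

variable {d : ℕ} {X : Type} [TopologicalSpace X] [ChartedSpace (Cm d) X] {ι : Type}
variable {A : Type} [Fintype A] {L : LineBundle d X ι}
  {Λ : Chart d X → Chart d X → X → Matrix A A ℂ}

/-- One step: a nonzero section which depends on a generically independent tuple can replace one
of its members. -/
theorem exists_step [ConnectedSpace X] {r : ℕ} {m : Fin (r + 1) → ℕ}
    {u : Fin (r + 1) → ι → Chart d X → Cm d → A → ℂ} (hu : ∀ b, IsSec L Λ (m b) (u b))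
    (hz : ∀ i e x, At e x → x ∈ L.U i → wedge u i e (e x) = 0) (h0 : ∃ x, Nz L (u 0) x)
    (hwne : ∃ x, Nz L (wedge fun b : Fin r => u b.succ) x) :
    ∃ k : Fin r, (∀ b, IsSec L Λ (Function.update (fun b : Fin r => m b.succ) k (m 0) b)
        (Function.update (fun b : Fin r => u b.succ) k (u 0) b)) ∧
      Prop2 L (wedge (Function.update (fun b : Fin r => u b.succ) k (u 0)))
        (wedge fun b : Fin r => u b.succ) ∧
      ∃ x, Nz L (wedge (Function.update (fun b : Fin r => u b.succ) k (u 0))) x := by
  classical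
  set v := u 0 with hv
  set w : Fin r → ι → Chart d X → Cm d → A → ℂ := fun b => u b.succ with hw
  have hws : ∀ b, IsSec L Λ (m b.succ) (w b) := fun b => hu b.succ
  have hvs : IsSec L Λ (m 0) v := hu 0
  have hcons : ∀ i e x, At e x → x ∈ L.U i → ∀ c' : Fin (r + 1) → A,
      mnr (Fin.cons (v i e (e x)) (fun b => w b i e (e x)) : Fin (r + 1) → A → ℂ) c' = 0 := by
    intro i e x he hi c'
    have h1 := congrFun (hz i e x he hi) c'
    have h2 : (fun b => u b i e (e x)) =
        (Fin.cons (v i e (e x)) (fun b => w b i e (e x)) : Fin (r + 1) → A → ℂ) := by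
      funext b
      refine Fin.cases ?_ (fun j => ?_) b
      · simp [hv]
      · simp [hw]
    simp only [wedge, h2, Pi.zero_apply] at h1
    exact h1
  have hsec : ∀ k : Fin r, ∀ b, IsSec L Λ (Function.update (fun b : Fin r => m b.succ) k (m 0) b)
      (Function.update w k v b) := by
    intro k b
    by_cases hb : b = k
    · subst hb; simpa using hvs
    · simpa [hb] using hws b
  have hupd : ∀ (k : Fin r) i e x, (fun b => Function.update w k v b i e (e x)) =
      Function.update (fun b => w b i e (e x)) k (v i e (e x)) := by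
    intro k i e x
    funext b
    by_cases hb : b = k
    · subst hb; simp
    · simp [hb]
  have hprop : ∀ k : Fin r, Prop2 L (wedge (Function.update w k v)) (wedge w) := by
    intro k i e x he hi c c'
    simp only [wedge]
    refine mnr_prop (fun b c'' => ?_) c c'
    by_cases hb : b = k
    · subst hb
      simpa using hcons i e x he hi c''
    · have := mnr_cons_repeat (fun b => w b i e (e x)) b c''
      simpa [hb] using this
  -- a point where both `v` and the wedge are nonzero
  have hwsec := isSec_wedge hws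
  obtain ⟨y, hy1, hy2⟩ := (hvs.dense h0).inter_open_nonempty _ hwsec.isOpen_nz hwne
  obtain ⟨j, hj⟩ := L.cover y
  have hey := at_chartAt (d := d) y
  set e' := chartAt (Cm d) y
  have h1 : wedge w j e' (e' y) ≠ 0 := hy1 j e' hey hj
  obtain ⟨c, hc⟩ := Function.ne_iff.1 h1
  have hc' : mnr (fun b => w b j e' (e' y)) c ≠ 0 := hc
  have hv0 : v j e' (e' y) ≠ 0 := hy2 j e' hey hj
  obtain ⟨k, hk⟩ := exists_exchange hv0 hc' (hcons j e' y hey hj)
  refine ⟨k, hsec k, hprop k, y, ?_⟩
  refine (isSec_wedge (hsec k)).nz hey hj ?_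
  intro h2
  have h3 := congrFun h2 c
  simp only [wedge, hupd, Pi.zero_apply] at h3
  exact hk h3

/-- **Finite form of the proportional pair theorem.** -/
theorem exists_prop_fin [ConnectedSpace X] :
    ∀ {r : ℕ} {m : Fin r → ℕ} {u : Fin r → ι → Chart d X → Cm d → A → ℂ},
      (∀ b, IsSec L Λ (m b) (u b)) → Function.Injective m → (∀ b, ∃ x, Nz L (u b) x) →
      (∀ i e x, At e x → x ∈ L.U i → wedge u i e (e x) = 0) →
      ∃ (q : ℕ) (m₀ m₁ : Fin q → ℕ) (u₀ u₁ : Fin q → ι → Chart d X → Cm d → A → ℂ),
        1 ≤ q ∧ q < r ∧ (∀ b, IsSec L Λ (m₀ b) (u₀ b)) ∧ (∀ b, IsSec L Λ (m₁ b) (u₁ b)) ∧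
        ∑ b, m₁ b < ∑ b, m₀ b ∧ ∑ b, m₀ b ≤ ∑ b, m b ∧
        (∃ x, Nz L (wedge u₀) x) ∧ (∃ x, Nz L (wedge u₁) x) ∧
        Prop2 L (wedge u₀) (wedge u₁) := by
  classical
  intro r
  induction r with
  | zero =>
    intro m u hu _ _ hz
    exfalso
    obtain ⟨x⟩ : Nonempty X := inferInstance
    obtain ⟨i, hi⟩ := L.cover x
    have h1 := congrFun (hz i _ x (at_chartAt x) hi) Fin.elim0
    simp [wedge, mnr] at h1
  | succ r ih =>
    intro m u hu hm hne hz
    set w : Fin r → ι → Chart d X → Cm d → A → ℂ := fun b => u b.succ with hw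
    have hws : ∀ b, IsSec L Λ (m b.succ) (w b) := fun b => hu b.succ
    have hsum : ∑ b, m b = m 0 + ∑ b : Fin r, m b.succ := Fin.sum_univ_succ m
    by_cases hwne : ∃ x, Nz L (wedge w) x
    · obtain ⟨k, hk1, hk2, hk3⟩ := exists_step hu hz (hne 0) hwne
      have hk0 : m 0 ≠ m k.succ := fun h => (Fin.succ_ne_zero k) (hm h.symm)
      have hs1 : ∑ b, Function.update (fun b : Fin r => m b.succ) k (m 0) b + m k.succ =
          m 0 + ∑ b : Fin r, m b.succ := by
        have h1 := Finset.sum_update_of_mem (Finset.mem_univ k) (fun b : Fin r => m b.succ) (m 0)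
        have h2 := Finset.add_sum_erase Finset.univ (fun b : Fin r => m b.succ)
          (Finset.mem_univ k)
        rw [h1, ← Finset.erase_eq, ← h2]
        ring
      have hle : m k.succ ≤ ∑ b : Fin r, m b.succ :=
        Finset.single_le_sum (f := fun b : Fin r => m b.succ) (fun _ _ => Nat.zero_le _)
          (Finset.mem_univ k)
      rcases lt_or_gt_of_ne hk0 with hlt | hgt
      · refine ⟨r, fun b => m b.succ, Function.update (fun b : Fin r => m b.succ) k (m 0), w,
          Function.update w k (u 0), k.pos, Nat.lt_succ_self r, hws, hk1, ?_, ?_, hwne, hk3, ?_⟩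
        · beta_reduce at hs1 ⊢
          omega
        · beta_reduce at hs1 ⊢
          omega
        · intro i e x he hi c c'
          have := hk2 i e x he hi c c'
          linear_combination -this
      · refine ⟨r, Function.update (fun b : Fin r => m b.succ) k (m 0), fun b => m b.succ,
          Function.update w k (u 0), w, k.pos, Nat.lt_succ_self r, hk1, hws, ?_, ?_, hk3, hwne,
          hk2⟩
        · beta_reduce at hs1 ⊢
          omega
        · beta_reduce at hs1 ⊢
          omega
    · have hz' : ∀ i e x, At e x → x ∈ L.U i → wedge w i e (e x) = 0 := by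
        intro i e x he hi
        by_contra h0
        exact hwne ⟨x, (isSec_wedge hws).nz he hi h0⟩
      obtain ⟨q, m₀, m₁, u₀, u₁, h1, h2, h3, h4, h5, h6, h7⟩ := ih hws
        (fun a b hab => Fin.succ_injective r (hm hab)) (fun b => hne b.succ) hz'
      exact ⟨q, m₀, m₁, u₀, u₁, h1, h2.trans (Nat.lt_succ_self r), h3, h4, h5,
        h6.trans (by omega), h7⟩

/-- More than `rank V` sections: the wedge vanishes. -/
theorem wedge_eq_zero {r : ℕ} (hr : Fintype.card A < r)
    (u : Fin r → ι → Chart d X → Cm d → A → ℂ) (i : ι) (e : Chart d X) (z : Cm d) :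
    wedge u i e z = 0 := by
  classical
  funext c
  have h1 : ¬ Function.Injective c := fun h => by
    have := Fintype.card_le_of_injective c h
    rw [Fintype.card_fin] at this
    omega
  simp only [Function.Injective, not_forall] at h1
  obtain ⟨a, b, hab, hne⟩ := h1
  show (Matrix.of fun a b => u b i e z (c a)).det = 0
  refine Matrix.det_zero_of_row_eq hne ?_
  funext k
  simp only [Matrix.of_apply, hab]

/-- **Finite form, more sections than the rank.** -/
theorem exists_prop_card [ConnectedSpace X] {r : ℕ} (hr : Fintype.card A < r) {m : Fin r → ℕ}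
    {u : Fin r → ι → Chart d X → Cm d → A → ℂ} (hu : ∀ b, IsSec L Λ (m b) (u b))
    (hm : Function.Injective m) (hne : ∀ b, ∃ x, Nz L (u b) x) :
    ∃ (q : ℕ) (m₀ m₁ : Fin q → ℕ) (u₀ u₁ : Fin q → ι → Chart d X → Cm d → A → ℂ),
      1 ≤ q ∧ q < r ∧ (∀ b, IsSec L Λ (m₀ b) (u₀ b)) ∧ (∀ b, IsSec L Λ (m₁ b) (u₁ b)) ∧
      ∑ b, m₁ b < ∑ b, m₀ b ∧ ∑ b, m₀ b ≤ ∑ b, m b ∧
      (∃ x, Nz L (wedge u₀) x) ∧ (∃ x, Nz L (wedge u₁) x) ∧ Prop2 L (wedge u₀) (wedge u₁) :=
  exists_prop_fin hu hm hne fun i e x _ _ => wedge_eq_zero hr u i e (e x)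

end Vale.Agent.P301.H98
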