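import Vale.Agent.P301.H98.Eff
import Vale.Agent.P301.H98.Prim2
import Vale.Agent.P301.H508.Tau
import Vale.Agent.P301.H450.Q

/-! COP and EFF for the form `q` of a symplectic manifold. -/

open scoped Manifold ContDiff ComplexOrder ComplexConjugate Topology Matrix
open MeasureTheory Set Filter Metric

noncomputable section

namespace Vale.Agent.P301.H98

open Vale.Agent.P272.K Vale.Agent.P301.H599 Vale.Agent.P301.H508 Vale.Agent.P301.H450

variable {d : ℕ} {X : Type} [TopologicalSpace X] [T2Space X] [CompactSpace X]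
  [ChartedSpace (Cm d) X] [IsManifold 𝓘(ℂ, Cm d) ω X]

/-- the pointwise pairing behind `q` -/
def qp (s : Chart d X → Cm d → Matrix (Fin d) (Fin d) ℂ) (e : Chart d X) (z : Cm d)
    (A B : Matrix (Fin d) (Fin d) ℂ) : ℝ :=
  (A * (((‖(s e z).det‖ : ℝ) : ℂ) • (((s e z)ᴴ)⁻¹ * Bᵀ * (s e z)⁻¹))).trace.re

lemma q_eq_intX (s a b : Chart d X → Cm d → Matrix (Fin d) (Fin d) ℂ) :
    q s a b = INT.intX (fun e z => qp s e z (a e z) (b e z)) := rfl

omit [T2Space X] [CompactSpace X] [ChartedSpace (Cm d) X] [IsManifold 𝓘(ℂ, Cm d) ω X] in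
lemma qp_add_left (s : Chart d X → Cm d → Matrix (Fin d) (Fin d) ℂ) (e z A A' B) :
    qp s e z (A + A') B = qp s e z A B + qp s e z A' B := by
  unfold qp; rw [Matrix.add_mul, Matrix.trace_add, Complex.add_re]

omit [T2Space X] [CompactSpace X] [ChartedSpace (Cm d) X] [IsManifold 𝓘(ℂ, Cm d) ω X] in
lemma qp_add_right (s : Chart d X → Cm d → Matrix (Fin d) (Fin d) ℂ) (e z A B B') :
    qp s e z A (B + B') = qp s e z A B + qp s e z A B' := by
  unfold qp
  rw [Matrix.transpose_add, Matrix.mul_add, Matrix.add_mul, smul_add, Matrix.mul_add,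
    Matrix.trace_add, Complex.add_re]

omit [T2Space X] [CompactSpace X] [ChartedSpace (Cm d) X] [IsManifold 𝓘(ℂ, Cm d) ω X] in
lemma qp_smul_left (s : Chart d X → Cm d → Matrix (Fin d) (Fin d) ℂ) (e z) (t : ℝ) (A B) :
    qp s e z ((t : ℂ) • A) B = t * qp s e z A B := by
  unfold qp; rw [Matrix.smul_mul, Matrix.trace_smul, smul_eq_mul, Complex.re_ofReal_mul]

omit [T2Space X] [CompactSpace X] [ChartedSpace (Cm d) X] [IsManifold 𝓘(ℂ, Cm d) ω X] in
lemma qp_smul_right (s : Chart d X → Cm d → Matrix (Fin d) (Fin d) ℂ) (e z) (t : ℝ) (A B) :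
    qp s e z A ((t : ℂ) • B) = t * qp s e z A B := by
  unfold qp
  have h0 : ((s e z)ᴴ)⁻¹ * ((t : ℂ) • B)ᵀ * (s e z)⁻¹ =
      (t : ℂ) • (((s e z)ᴴ)⁻¹ * Bᵀ * (s e z)⁻¹) := by
    rw [Matrix.transpose_smul, Matrix.mul_smul, Matrix.smul_mul]
  rw [h0, smul_comm, Matrix.mul_smul, Matrix.trace_smul, smul_eq_mul, Complex.re_ofReal_mul]

omit [T2Space X] [CompactSpace X] [ChartedSpace (Cm d) X] [IsManifold 𝓘(ℂ, Cm d) ω X] in
lemma qp_nonneg (s : Chart d X → Cm d → Matrix (Fin d) (Fin d) ℂ) (e z)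
    {A B : Matrix (Fin d) (Fin d) ℂ} (hA : A.PosSemidef) (hB : B.PosSemidef) :
    0 ≤ qp s e z A B := by
  unfold qp
  rw [Matrix.mul_smul, Matrix.trace_smul, smul_eq_mul, Complex.re_ofReal_mul]
  refine mul_nonneg (norm_nonneg _) ?_
  have h1 : (((s e z)ᴴ)⁻¹ * Bᵀ * (s e z)⁻¹).PosSemidef := by
    have := hB.transpose.conjTranspose_mul_mul_same (s e z)⁻¹
    rwa [Matrix.conjTranspose_nonsing_inv] at this
  exact (Complex.le_def.1 (Vale.Agent.P272.K.C2.trace_mul_nonneg hA h1)).1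

omit [T2Space X] [CompactSpace X] [ChartedSpace (Cm d) X] [IsManifold 𝓘(ℂ, Cm d) ω X] in
lemma qp_bound (s : Chart d X → Cm d → Matrix (Fin d) (Fin d) ℂ) (e z)
    (A B : Matrix (Fin d) (Fin d) ℂ) :
    |qp s e z A B| ≤ (‖(s e z).det‖ * (∑ i, ∑ j, ‖((s e z)ᴴ)⁻¹ i j‖) *
      ∑ i, ∑ j, ‖(s e z)⁻¹ i j‖) * (∑ i, ∑ j, ‖A i j‖) * ∑ i, ∑ j, ‖B i j‖ := by
  set P := ((s e z)ᴴ)⁻¹
  set Q := (s e z)⁻¹
  set c := ‖(s e z).det‖
  have hc : 0 ≤ c := norm_nonneg _
  have hPe : ∀ i j, ‖P i j‖ ≤ ∑ i, ∑ j, ‖P i j‖ := fun i j =>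
    (Finset.single_le_sum (f := fun j => ‖P i j‖) (fun _ _ => norm_nonneg _)
      (Finset.mem_univ j)).trans (Finset.single_le_sum (f := fun i => ∑ j, ‖P i j‖)
      (fun _ _ => Finset.sum_nonneg fun _ _ => norm_nonneg _) (Finset.mem_univ i))
  have hQe : ∀ i j, ‖Q i j‖ ≤ ∑ i, ∑ j, ‖Q i j‖ := fun i j =>
    (Finset.single_le_sum (f := fun j => ‖Q i j‖) (fun _ _ => norm_nonneg _)
      (Finset.mem_univ j)).trans (Finset.single_le_sum (f := fun i => ∑ j, ‖Q i j‖)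
      (fun _ _ => Finset.sum_nonneg fun _ _ => norm_nonneg _) (Finset.mem_univ i))
  set NP := ∑ i, ∑ j, ‖P i j‖
  set NQ := ∑ i, ∑ j, ‖Q i j‖
  have hNP : 0 ≤ NP := Finset.sum_nonneg fun _ _ => Finset.sum_nonneg fun _ _ => norm_nonneg _
  have hNQ : 0 ≤ NQ := Finset.sum_nonneg fun _ _ => Finset.sum_nonneg fun _ _ => norm_nonneg _
  set NB := ∑ i, ∑ j, ‖B i j‖
  have hent : ∀ j i, ‖(P * Bᵀ * Q) j i‖ ≤ NP * NQ * NB := by
    intro j i
    rw [Matrix.mul_apply]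
    refine (norm_sum_le _ _).trans ?_
    have h1 : ∀ l, ‖(P * Bᵀ) j l * Q l i‖ ≤ NP * (∑ k, ‖B l k‖) * NQ := by
      intro l
      rw [norm_mul]
      refine mul_le_mul ?_ (hQe l i) (norm_nonneg _) (mul_nonneg hNP
        (Finset.sum_nonneg fun _ _ => norm_nonneg _))
      rw [Matrix.mul_apply, Finset.mul_sum]
      refine (norm_sum_le _ _).trans (Finset.sum_le_sum fun k _ => ?_)
      rw [norm_mul]
      exact mul_le_mul (hPe j k) le_rfl (norm_nonneg _) hNP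
    refine (Finset.sum_le_sum fun l _ => h1 l).trans (le_of_eq ?_)
    rw [← Finset.sum_mul, ← Finset.mul_sum]
    ring
  have hn : |qp s e z A B| ≤ ‖(A * (((c : ℝ) : ℂ) • (P * Bᵀ * Q))).trace‖ := Complex.abs_re_le_norm _
  refine hn.trans ?_
  rw [Matrix.mul_smul, Matrix.trace_smul, norm_smul, Complex.norm_real, Real.norm_eq_abs,
    abs_of_nonneg hc]
  have h2 : ‖(A * (P * Bᵀ * Q)).trace‖ ≤ (∑ i, ∑ j, ‖A i j‖) * (NP * NQ * NB) := by
    unfold Matrix.trace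
    rw [Finset.sum_mul]
    refine (norm_sum_le _ _).trans (Finset.sum_le_sum fun i _ => ?_)
    rw [Matrix.diag_apply, Matrix.mul_apply, Finset.sum_mul]
    refine (norm_sum_le _ _).trans (Finset.sum_le_sum fun j _ => ?_)
    rw [norm_mul]
    exact mul_le_mul_of_nonneg_left (hent j i) (norm_nonneg _)
  calc c * ‖(A * (P * Bᵀ * Q)).trace‖ ≤ c * ((∑ i, ∑ j, ‖A i j‖) * (NP * NQ * NB)) :=
        mul_le_mul_of_nonneg_left h2 hc
    _ = c * NP * NQ * (∑ i, ∑ j, ‖A i j‖) * NB := by ring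

variable {s w : Chart d X → Cm d → Matrix (Fin d) (Fin d) ℂ} {κ : ℝ}

/-- `q` is a pairing in the sense of COP -/
theorem pairing_q (h : SData s w κ) : Pairing (qp s) where
  add_left := qp_add_left s
  add_right := qp_add_right s
  smul_left := qp_smul_left s
  smul_right := qp_smul_right s
  pos := fun e x _ u v => qp_nonneg s e (e x) (Matrix.posSemidef_vecMulVec_self_star u)
    (Matrix.posSemidef_vecMulVec_self_star v)
  bound := fun e he K hK hKe => by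
    have hc : ContinuousOn (fun z => ‖(s e z).det‖ * (∑ i, ∑ j, ‖((s e z)ᴴ)⁻¹ i j‖) *
        ∑ i, ∑ j, ‖(s e z)⁻¹ i j‖) K := by
      intro z hz
      have hx : At e (e.symm z) := At.of_target he (hKe hz)
      have hnd := h.nondeg e _ hx
      have hS : C2.MC ∞ (s e) (e (e.symm z)) := MC_s h.form hx
      rw [e.right_inv (hKe hz)] at hnd hS
      have h1 : C2.MC ∞ (fun z => ((s e z)ᴴ)⁻¹) z := by
        refine C2.MC.inv hS.conjTranspose ?_
        rw [Matrix.det_conjTranspose]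
        exact star_ne_zero.2 hnd
      have h2 : C2.MC ∞ (fun z => (s e z)⁻¹) z := hS.inv hnd
      refine ContinuousAt.continuousWithinAt ?_
      refine (((C2.MC.det hS).continuousAt.norm).mul ?_).mul ?_
      · exact tendsto_finsetSum _ fun i _ => tendsto_finsetSum _ fun j _ =>
          (h1 i j).continuousAt.norm
      · exact tendsto_finsetSum _ fun i _ => tendsto_finsetSum _ fun j _ =>
          (h2 i j).continuousAt.norm
    obtain ⟨C, hC⟩ := hK.exists_bound_of_continuousOn hc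
    refine ⟨|C|, abs_nonneg _, fun z hz A B => (qp_bound s e z A B).trans ?_⟩
    have h3 := hC z hz
    rw [Real.norm_eq_abs] at h3
    have h4 := (le_abs_self _).trans (h3.trans (le_abs_self C))
    have hA : 0 ≤ ∑ i, ∑ j, ‖A i j‖ :=
      Finset.sum_nonneg fun _ _ => Finset.sum_nonneg fun _ _ => norm_nonneg _
    have hB : 0 ≤ ∑ i, ∑ j, ‖B i j‖ :=
      Finset.sum_nonneg fun _ _ => Finset.sum_nonneg fun _ _ => norm_nonneg _
    exact mul_le_mul_of_nonneg_right (mul_le_mul_of_nonneg_right h4 hA) hB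
  dens := fun a b ha hb => q_dens h ha.closed hb.closed
  stokes_left := fun a b u ha hb hu => by
    have h1 := q_add_left h ha.closed (rform_ddc hu).closed hb.closed (a' := ddc (d := d) u)
    rw [q_hess_left h hb.closed hu, add_zero] at h1
    exact h1
  stokes_right := fun a b u ha hb hu => by
    have h1 := q_add_right h ha.closed hb.closed (rform_ddc hu).closed (b' := ddc (d := d) u)
    rw [q_hess_right h ha.closed hu, add_zero] at h1
    exact h1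

variable {ι₁ ι₂ : Type} {L₁ : LineBundle d X ι₁} {L₂ : LineBundle d X ι₂} {ρ₁ : ι₁ → X → ℝ}
  {ρ₂ : ι₂ → X → ℝ} {s₁ : ι₁ → X → ℂ} {s₂ : ι₂ → X → ℂ}

/-- **COP for `q`** -/
theorem cop_q (h : SData s w κ) (hρ₁ : IsMetric L₁ ρ₁) (hρ₂ : IsMetric L₂ ρ₂)
    (hs₁ : IsSection L₁ s₁) (hs₂ : IsSection L₂ s₂) (hc : Coprime L₁ L₂ s₁ s₂) :
    0 ≤ q s (curvature L₁ ρ₁) (curvature L₂ ρ₂) :=
  cop (pairing_q h) hρ₁ hρ₂ hs₁ hs₂ hc

/-- **EFF for `q`** -/
theorem eff_q (h : SData s w κ) (hρ₁ : IsMetric L₁ ρ₁) (hs₁ : IsSection L₁ s₁) (hn : NLZ L₁ s₁)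
    {b : Chart d X → Cm d → Matrix (Fin d) (Fin d) ℂ} (hb : RForm b)
    (hbp : ∀ e x, At e x → (b e (e x)).PosSemidef) : 0 ≤ q s (curvature L₁ ρ₁) b :=
  eff (pairing_q h) hρ₁ hs₁ hn hb hbp

theorem eff_nef_q (h : SData s w κ) (hρ₁ : IsMetric L₁ ρ₁) (hs₁ : IsSection L₁ s₁)
    (hn : NLZ L₁ s₁) {θ w' : Chart d X → Cm d → Matrix (Fin d) (Fin d) ℂ} (hθ : RForm θ)
    (hw : RForm w')
    (hnef : ∀ ε : ℝ, 0 < ε → ∃ u : X → ℝ, Smooth (d := d) u ∧ ∀ e x, At e x →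
      (θ e (e x) + (ε : ℂ) • w' e (e x) + ddc u e (e x)).PosSemidef) :
    0 ≤ q s (curvature L₁ ρ₁) θ :=
  eff_nef (pairing_q h) hρ₁ hs₁ hn hθ hw hnef

omit [T2Space X] [CompactSpace X] [IsManifold 𝓘(ℂ, Cm d) ω X] in
/-- sections from a family of primitive vectors -/
theorem isSection_of_prim {ι : Type} {L : LineBundle d X ι} {t : ι → X → Fin 2 → ℂ} (k : Fin 2)
    (hp : ∀ i x, x ∈ L.U i → PrimX (d := d) (t i) x)
    (hch : ∀ i j x, x ∈ L.U i → x ∈ L.U j → t i x k = L.g i j x * t j x k) :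
    IsSection L (fun i x => t i x k) where
  holo := fun i e x he hi => an_comp (hp i x hi e he).an k
  change := hch

omit [T2Space X] [CompactSpace X] [IsManifold 𝓘(ℂ, Cm d) ω X] in
/-- coprimality from a family of primitive vectors -/
theorem coprime_of_primX {ι : Type} {L₁ L₂ : LineBundle d X ι} {t : ι → X → Fin 2 → ℂ}
    (h : ∀ x, ∃ i, x ∈ L₁.U i ∧ x ∈ L₂.U i ∧ PrimX (d := d) (t i) x ∧
      ¬ ∀ᶠ y in 𝓝 x, t i y 0 = 0) :
    Coprime L₁ L₂ (fun i x => t i x 0) (fun i x => t i x 1) := by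
  refine Coprime.of_prim fun e x hx => ?_
  obtain ⟨i, h1, h2, h3, h4⟩ := h x
  refine ⟨i, i, h1, h2, fun h5 => h4 ?_, ?_⟩
  · have h6 : Tendsto e (𝓝 x) (𝓝 (e x)) := e.continuousAt hx.2
    filter_upwards [h6.eventually h5, e.open_source.mem_nhds hx.2] with y h7 h8
    rwa [e.left_inv h8] at h7
  · have h5 := h3 e hx
    have h6 : (fun z => ![t i (e.symm z) 0, t i (e.symm z) 1]) = fun z => t i (e.symm z) := by
      funext z
      ext k
      fin_cases k <;> rfl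
    rw [h6]
    exact h5

/-- **COP for a moving pair** (`t k` is a section of `W ⊗ L^(m k)`, the pair `t` is primitive at
every point). -/
theorem cop_moving {ι κ' : Type} {W : LineBundle d X κ'} {L : LineBundle d X ι} {i : κ' → ι}
    (hi : ∀ x, W.U x ⊆ L.U (i x)) {mm : Fin 2 → ℕ} {t : κ' → X → Fin 2 → ℂ}
    (hp : ∀ x z, z ∈ W.U x → PrimX (d := d) (t x) z)
    (hch : ∀ x y z, z ∈ W.U x → z ∈ W.U y → ∀ k,
      t x z k = W.g x y z * L.g (i x) (i y) z ^ mm k * t y z k)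
    (hne : ∀ x z, z ∈ W.U x → ¬ ∀ᶠ y in 𝓝 z, t x y 0 = 0)
    (h : SData s w κ) {ρ₀ ρ₁ : κ' → X → ℝ} (hρ₀ : IsMetric (tens W L i hi (mm 0)) ρ₀)
    (hρ₁ : IsMetric (tens W L i hi (mm 1)) ρ₁) :
    0 ≤ q s (curvature (tens W L i hi (mm 0)) ρ₀) (curvature (tens W L i hi (mm 1)) ρ₁) := by
  have hs0 : IsSection (tens W L i hi (mm 0)) (fun x z => t x z 0) :=
    isSection_of_prim 0 hp fun x y z hx hy => hch x y z hx hy 0
  have hs1 : IsSection (tens W L i hi (mm 1)) (fun x z => t x z 1) :=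
    isSection_of_prim 1 hp fun x y z hx hy => hch x y z hx hy 1
  refine cop_q h hρ₀ hρ₁ hs0 hs1 (coprime_of_primX fun x => ?_)
  obtain ⟨j, hj⟩ := W.cover x
  exact ⟨j, hj, hj, hp j x hj, hne j x hj⟩

end Vale.Agent.P301.H98
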