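import Vale.Agent.P301.H98.Tr

/-! The complete local estimate. -/

open scoped ContDiff ComplexOrder ComplexConjugate Topology ENNReal
open MeasureTheory Set Filter Metric

noncomputable section

namespace Vale.Agent.P301.H98

open Vale.Agent.P272.K

variable {d : ℕ}

/-- the trace of the positive part -/
def tp (f : Cm d → ℂ) (ρ : Cm d → ℝ) (δ : ℝ) (z : Cm d) : ℝ := cf f ρ δ z * ∑ k, ‖Dc f ρ z k‖ ^ 2

lemma tp_nonneg {f : Cm d → ℂ} {ρ : Cm d → ℝ} {δ : ℝ} (hδ : 0 ≤ δ) (z : Cm d) :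
    0 ≤ tp f ρ δ z := mul_nonneg (cf_nonneg hδ z) (Finset.sum_nonneg fun _ _ => by positivity)

lemma continuousAt_tp {f : Cm d → ℂ} {ρ : Cm d → ℝ} {δ : ℝ} {z : Cm d} (hf : AnalyticAt ℂ f z)
    (hρ : ContDiffAt ℝ ∞ ρ z) (hδ : 0 < δ) : ContinuousAt (tp f ρ δ) z :=
  (continuousAt_cf hf hρ hδ).mul
    (tendsto_finsetSum _ fun k _ => ((continuousAt_Dc hf hρ k).norm.pow 2))

/-- `α₁ α₂ + α₁ tr P₂ + α₂ tr P₁` -/
def gg (f₁ f₂ : Cm d → ℂ) (ρ₁ ρ₂ : Cm d → ℝ) (δ' δ : ℝ) (z : Cm d) : ℝ :=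
  al f₁ ρ₁ δ z * (al f₂ ρ₂ δ' z + tp f₂ ρ₂ δ' z) + al f₂ ρ₂ δ' z * tp f₁ ρ₁ δ z

variable {f₁ f₂ : Cm d → ℂ} {ρ₁ ρ₂ : Cm d → ℝ} {a : Cm d} {R : ℝ}

lemma gg_nonneg {δ' δ : ℝ} (hδ' : 0 ≤ δ') (hδ : 0 ≤ δ) (z : Cm d) :
    0 ≤ gg f₁ f₂ ρ₁ ρ₂ δ' δ z :=
  add_nonneg (mul_nonneg (al_nonneg hδ z) (add_nonneg (al_nonneg hδ' z) (tp_nonneg hδ' z)))
    (mul_nonneg (al_nonneg hδ' z) (tp_nonneg hδ z))

lemma continuousAt_gg {δ' δ : ℝ} {z : Cm d} (hf₁ : AnalyticAt ℂ f₁ z) (hf₂ : AnalyticAt ℂ f₂ z)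
    (hρ₁ : ContDiffAt ℝ ∞ ρ₁ z) (hρ₂ : ContDiffAt ℝ ∞ ρ₂ z) (hδ' : 0 < δ') (hδ : 0 < δ) :
    ContinuousAt (gg f₁ f₂ ρ₁ ρ₂ δ' δ) z :=
  ((continuousAt_al hf₁ hρ₁ hδ).mul ((continuousAt_al hf₂ hρ₂ hδ').add
    (continuousAt_tp hf₂ hρ₂ hδ'))).add ((continuousAt_al hf₂ hρ₂ hδ').mul
    (continuousAt_tp hf₁ hρ₁ hδ))

lemma al_tendsto {f : Cm d → ℂ} {ρ : Cm d → ℝ} {z : Cm d} (h : f z ≠ 0) :
    Tendsto (fun δ => al f ρ δ z) (𝓝[>] 0) (𝓝 0) := by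
  have hn := nh_pos (ρ := ρ) h
  have h1 : Tendsto (fun δ : ℝ => δ / (nh f ρ z + δ)) (𝓝 0) (𝓝 (0 / (nh f ρ z + 0))) :=
    tendsto_id.div (tendsto_const_nhds.add tendsto_id) (by simpa using hn.ne')
  rw [zero_div] at h1
  exact h1.mono_left nhdsWithin_le_nhds

/-- the easy part -/
theorem local_A (h : Loc2 f₁ f₂ ρ₁ ρ₂ a R) {η : ℝ} (hη : 0 < η) {δ' : ℝ} (hδ' : 0 < δ') :
    ∀ᶠ δ in 𝓝[>] (0:ℝ), ∫ z in ball a R, al f₁ ρ₁ δ z * (al f₂ ρ₂ δ' z + tp f₂ ρ₂ δ' z) ≤ η := by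
  have hR := h.hR
  have hK : IsCompact (closedBall a (2 * R)) := isCompact_closedBall a _
  have hsub := h.sub
  have hsub' : ball a R ⊆ closedBall a (2 * R) :=
    ball_subset_closedBall.trans (closedBall_subset_closedBall (by linarith))
  have iOn : ∀ {F : Cm d → ℝ}, (∀ z ∈ ball a (3 * R), ContinuousAt F z) →
      IntegrableOn F (ball a R) := fun hF =>
    (ContinuousOn.integrableOn_compact hK fun z hz =>
      (hF z (hsub hz)).continuousWithinAt).mono_set hsub'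
  have hi : IntegrableOn (fun z => al f₂ ρ₂ δ' z + tp f₂ ρ₂ δ' z) (ball a R) :=
    iOn fun z hz => (continuousAt_al (h.f2 z hz) (h.r2 z hz) hδ').add
      (continuousAt_tp (h.f2 z hz) (h.r2 z hz) hδ')
  have ht : Tendsto (fun δ : ℝ => ∫ z in ball a R, al f₁ ρ₁ δ z * (al f₂ ρ₂ δ' z + tp f₂ ρ₂ δ' z))
      (𝓝[>] 0) (𝓝 (∫ z in ball a R, (0:ℝ))) := by
    refine tendsto_integral_filter_of_dominated_convergence
      (fun z => al f₂ ρ₂ δ' z + tp f₂ ρ₂ δ' z) ?_ ?_ hi ?_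
    · filter_upwards [self_mem_nhdsWithin] with δ hδ
      exact (iOn fun z hz => (continuousAt_al (h.f1 z hz) (h.r1 z hz) hδ).mul
        ((continuousAt_al (h.f2 z hz) (h.r2 z hz) hδ').add
          (continuousAt_tp (h.f2 z hz) (h.r2 z hz) hδ'))).aestronglyMeasurable
    · filter_upwards [self_mem_nhdsWithin] with δ hδ
      refine Eventually.of_forall fun z => ?_
      have h1 := al_nonneg (f := f₁) (ρ := ρ₁) (le_of_lt hδ) z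
      have h2 := al_le_one (f := f₁) (ρ := ρ₁) hδ z
      have h3 : 0 ≤ al f₂ ρ₂ δ' z + tp f₂ ρ₂ δ' z :=
        add_nonneg (al_nonneg hδ'.le z) (tp_nonneg hδ'.le z)
      rw [Real.norm_eq_abs, abs_of_nonneg (mul_nonneg h1 h3)]
      exact mul_le_of_le_one_left h3 h2
    · have hne : ∀ᵐ z ∂(volume.restrict (ball a R)), f₁ z ≠ 0 :=
        ae_restrict_of_ae_restrict_of_subset (ball_subset_ball (by linarith)) h.ne
      filter_upwards [hne] with z hz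
      have := (al_tendsto (ρ := ρ₁) hz).mul_const (al f₂ ρ₂ δ' z + tp f₂ ρ₂ δ' z)
      simpa using this
  rw [integral_zero] at ht
  filter_upwards [(tendsto_order.1 ht).2 η hη] with δ hδ using hδ.le

/-- the local estimate -/
theorem local_G (hf1 : AnalyticAt ℂ f₁ a) (hf2 : AnalyticAt ℂ f₂ a)
    (hρ₁ : ∀ᶠ z in 𝓝 a, ContDiffAt ℝ ∞ ρ₁ z) (hρ₂ : ∀ᶠ z in 𝓝 a, ContDiffAt ℝ ∞ ρ₂ z)
    (hne : ¬ ∀ᶠ z in 𝓝 a, f₁ z = 0)
    (hsl : ∀ v, (¬ ∀ᶠ ζ in 𝓝 (0:ℂ), f₁ (a + ζ • v) = 0) → Slice f₁ f₂ a v) :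
    ∃ R > 0, ∀ R', 0 < R' → R' ≤ R → Loc2 f₁ f₂ ρ₁ ρ₂ a R' ∧
      ∀ η : ℝ, 0 < η → ∀ᶠ δ' in 𝓝[>] (0:ℝ), ∀ᶠ δ in 𝓝[>] (0:ℝ),
        ∫ z in ball a R', gg f₁ f₂ ρ₁ ρ₂ δ' δ z ≤ η := by
  obtain ⟨R, hR, hL, hest⟩ := exists_local hf1 hf2 hρ₁ hρ₂ hne hsl
  refine ⟨R, hR, fun R' hR' hR'R => ⟨hL.mono hR' hR'R, fun η hη => ?_⟩⟩
  filter_upwards [hest (η / 2) (by positivity), self_mem_nhdsWithin] with δ' h1 hδ'
  have hδ'0 : 0 < δ' := hδ'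
  filter_upwards [h1, local_A hL (half_pos hη) hδ'0, self_mem_nhdsWithin] with δ h2 h3 hδ
  have hδ0 : 0 < δ := hδ
  have hK : IsCompact (closedBall a (2 * R)) := isCompact_closedBall a _
  have hsub := hL.sub
  have hsub' : ball a R ⊆ closedBall a (2 * R) :=
    ball_subset_closedBall.trans (closedBall_subset_closedBall (by linarith))
  have iOn : ∀ {F : Cm d → ℝ}, (∀ z ∈ ball a (3 * R), ContinuousAt F z) →
      IntegrableOn F (ball a R) := fun hF =>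
    (ContinuousOn.integrableOn_compact hK fun z hz =>
      (hF z (hsub hz)).continuousWithinAt).mono_set hsub'
  have i1 : IntegrableOn (fun z => al f₁ ρ₁ δ z * (al f₂ ρ₂ δ' z + tp f₂ ρ₂ δ' z)) (ball a R) :=
    iOn fun z hz => (continuousAt_al (hL.f1 z hz) (hL.r1 z hz) hδ0).mul
        ((continuousAt_al (hL.f2 z hz) (hL.r2 z hz) hδ'0).add
          (continuousAt_tp (hL.f2 z hz) (hL.r2 z hz) hδ'0))
  have i2 : IntegrableOn (fun z => al f₂ ρ₂ δ' z * tp f₁ ρ₁ δ z) (ball a R) :=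
    iOn fun z hz => (continuousAt_al (hL.f2 z hz) (hL.r2 z hz) hδ'0).mul
        (continuousAt_tp (hL.f1 z hz) (hL.r1 z hz) hδ0)
  have i3 : IntegrableOn (gg f₁ f₂ ρ₁ ρ₂ δ' δ) (ball a R) := i1.add i2
  have h4 : ∫ z in ball a R', gg f₁ f₂ ρ₁ ρ₂ δ' δ z ≤ ∫ z in ball a R, gg f₁ f₂ ρ₁ ρ₂ δ' δ z := by
    refine setIntegral_mono_set i3 ?_ ?_
    · exact Eventually.of_forall fun z => gg_nonneg hδ'0.le hδ0.le z
    · exact (ball_subset_ball hR'R).eventuallyLE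
  refine h4.trans ?_
  unfold gg
  rw [integral_add i1 i2]
  have h5 : ∫ z in ball a R, al f₂ ρ₂ δ' z * tp f₁ ρ₁ δ z ≤ η / 2 := h2
  linarith

end Vale.Agent.P301.H98
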