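import Vale.Agent.P272.K.C2.Wirt
import Vale.Agent.P272.K.INT.Dens

/-! Pointwise formulas for `log (|f|² e^{-ρ} + δ)`. -/

open scoped ContDiff ComplexOrder ComplexConjugate Topology
open MeasureTheory Set Filter Metric

noncomputable section

namespace Vale.Agent.P301.H98

open Vale.Agent.P272.K

variable {d : ℕ}

/-- `|f|² e^{-ρ}` -/
def nh (f : Cm d → ℂ) (ρ : Cm d → ℝ) (z : Cm d) : ℝ := ‖f z‖ ^ 2 * Real.exp (-ρ z)

/-- the components of `D'f = ∂f - f ∂ρ` -/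
def Dc (f : Cm d → ℂ) (ρ : Cm d → ℝ) (z : Cm d) (j : Fin d) : ℂ :=
  dz j f z - f z * dz j (fun y => (ρ y : ℂ)) z

/-- `log (|f|² e^{-ρ} + δ)` -/
def lg (f : Cm d → ℂ) (ρ : Cm d → ℝ) (δ : ℝ) (z : Cm d) : ℝ := Real.log (nh f ρ z + δ)

/-- the coefficient of the positive part -/
def cf (f : Cm d → ℂ) (ρ : Cm d → ℝ) (δ : ℝ) (z : Cm d) : ℝ :=
  δ * Real.exp (-ρ z) / (nh f ρ z + δ) ^ 2

/-- the positive part -/
def Pm (f : Cm d → ℂ) (ρ : Cm d → ℝ) (δ : ℝ) (z : Cm d) : Matrix (Fin d) (Fin d) ℂ :=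
  ((cf f ρ δ z : ℝ) : ℂ) • Matrix.vecMulVec (Dc f ρ z) (star (Dc f ρ z))

lemma nh_nonneg (f : Cm d → ℂ) (ρ : Cm d → ℝ) (z : Cm d) : 0 ≤ nh f ρ z := by
  unfold nh; positivity

lemma nh_pos {f : Cm d → ℂ} {ρ : Cm d → ℝ} {z : Cm d} (h : f z ≠ 0) : 0 < nh f ρ z := by
  unfold nh; positivity

lemma cf_nonneg {f : Cm d → ℂ} {ρ : Cm d → ℝ} {δ : ℝ} (hδ : 0 ≤ δ) (z : Cm d) :
    0 ≤ cf f ρ δ z := by
  unfold cf; positivity

variable {f : Cm d → ℂ} {ρ : Cm d → ℝ} {z : Cm d} {δ : ℝ}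

lemma contDiff_f {m : ℕ∞} (hf : AnalyticAt ℂ f z) : ContDiffAt ℝ m f z :=
  (hf.contDiffAt (n := ω)).restrict_scalars ℝ |>.of_le le_top

lemma contDiff_nh {m : ℕ∞} (hf : AnalyticAt ℂ f z) (hρ : ContDiffAt ℝ m ρ z) :
    ContDiffAt ℝ m (nh f ρ) z := by
  unfold nh
  exact ((contDiff_f hf).norm_sq ℝ).mul (Real.contDiff_exp.contDiffAt.comp z hρ.neg)

lemma dzb_holo (hf : AnalyticAt ℂ f z) (k : Fin d) : dzb k f z = 0 :=
  INT.dzb_of_holo hf.differentiableAt k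

/-- `∂̄(|f|² e^{-ρ}) = f conj(D'f) e^{-ρ}` -/
lemma dzb_nh (hf : AnalyticAt ℂ f z) (hρ : DifferentiableAt ℝ ρ z) (k : Fin d) :
    dzb k (fun y => (nh f ρ y : ℂ)) z = f z * conj (Dc f ρ z k) * (Real.exp (-ρ z) : ℂ) := by
  have hfd : DifferentiableAt ℝ f z := hf.differentiableAt.restrictScalars ℝ
  have e : (fun y => (nh f ρ y : ℂ)) =
      fun y => (f y * conj (f y)) * ((Real.exp (-ρ y) : ℝ) : ℂ) := by
    funext y
    unfold nh
    rw [Complex.mul_conj]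
    push_cast [Complex.normSq_eq_norm_sq]
    ring
  have hc : DifferentiableAt ℝ (fun y => conj (f y)) z := C2.differentiableAt_conj hfd
  have hE : DifferentiableAt ℝ (fun y => ((Real.exp (-ρ y) : ℝ) : ℂ)) z :=
    C2.differentiableAt_ofReal (hρ.neg.exp)
  have h1 : dzb k (fun y => ((Real.exp (-ρ y) : ℝ) : ℂ)) z =
      ((-Real.exp (-ρ z) : ℝ) : ℂ) * dzb k (fun y => (ρ y : ℂ)) z := by
    refine C2.dzb_comp_real (ψ := fun s => Real.exp (-s)) k ?_ hρ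
    have := (hasDerivAt_neg (ρ z)).exp
    simpa using this
  rw [e, C2.dzb_mul k (hfd.fun_mul hc) hE, C2.dzb_mul k hfd hc, C2.dzb_conj k hfd, dzb_holo hf, h1]
  unfold Dc
  rw [map_sub, map_mul, ← C2.dzb_real k hρ]
  push_cast
  ring

/-- `∂(|f|² e^{-ρ}) = conj(f) D'f e^{-ρ}` -/
lemma dz_nh (hf : AnalyticAt ℂ f z) (hρ : DifferentiableAt ℝ ρ z) (k : Fin d) :
    dz k (fun y => (nh f ρ y : ℂ)) z = conj (f z) * Dc f ρ z k * (Real.exp (-ρ z) : ℂ) := by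
  have hn : DifferentiableAt ℝ (nh f ρ) z := by
    unfold nh
    exact ((hf.differentiableAt.restrictScalars ℝ).norm_sq ℝ).mul hρ.neg.exp
  rw [C2.dz_real k hn, dzb_nh hf hρ, map_mul, map_mul, Complex.conj_conj, Complex.conj_ofReal]

/-- the complex Hessian of `|f|² e^{-ρ}` -/
lemma cHess_nh (hf : AnalyticAt ℂ f z) (hρ : ContDiffAt ℝ 2 ρ z) (j k : Fin d) :
    cHess (nh f ρ) z j k = (Dc f ρ z j * conj (Dc f ρ z k)) * (Real.exp (-ρ z) : ℂ) -
      (nh f ρ z : ℂ) * cHess ρ z j k := by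
  have hρ' : DifferentiableAt ℝ ρ z := hρ.differentiableAt (by norm_num)
  have hfd : DifferentiableAt ℝ f z := hf.differentiableAt.restrictScalars ℝ
  have hev : ∀ᶠ y in 𝓝 z, AnalyticAt ℂ f y := hf.eventually_analyticAt
  have hρev : ∀ᶠ y in 𝓝 z, ContDiffAt ℝ 2 ρ y := C2.eventually_contDiffAt (m := 2) hρ
  have e : (dzb k fun y => (nh f ρ y : ℂ)) =ᶠ[𝓝 z]
      fun y => (f y * (conj (dz k f y) - conj (f y) * dzb k (fun y => (ρ y : ℂ)) y)) *
        ((Real.exp (-ρ y) : ℝ) : ℂ) := by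
    filter_upwards [hev, hρev] with y h1 h2
    have h2' : DifferentiableAt ℝ ρ y := h2.differentiableAt (by norm_num)
    rw [dzb_nh h1 h2']
    unfold Dc
    rw [map_sub, map_mul, ← C2.dzb_real k h2']
  rw [C2.cHess_apply, C2.dz_congr j e]
  have hc : DifferentiableAt ℝ (fun y => conj (f y)) z := C2.differentiableAt_conj hfd
  have hE : DifferentiableAt ℝ (fun y => ((Real.exp (-ρ y) : ℝ) : ℂ)) z :=
    C2.differentiableAt_ofReal (hρ'.neg.exp)
  have hdf : DifferentiableAt ℝ (dz k f) z :=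
    C2.differentiableAt_dz k (contDiff_f (m := 2) hf)
  have hcdf : DifferentiableAt ℝ (fun y => conj (dz k f y)) z := C2.differentiableAt_conj hdf
  have hdρ : DifferentiableAt ℝ (dzb k fun y => (ρ y : ℂ)) z :=
    C2.differentiableAt_dzb k (C2.contDiffAt_ofReal hρ)
  have h1 : dz j (fun y => ((Real.exp (-ρ y) : ℝ) : ℂ)) z =
      ((-Real.exp (-ρ z) : ℝ) : ℂ) * dz j (fun y => (ρ y : ℂ)) z := by
    refine C2.dz_comp_real (ψ := fun s => Real.exp (-s)) j ?_ hρ'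
    have := (hasDerivAt_neg (ρ z)).exp
    simpa using this
  have h2 : dz j (fun y => conj (dz k f y)) z = 0 := by
    rw [C2.dz_conj j hdf]
    have : dzb j (dz k f) z = 0 := by
      rw [← C2.dz_dzb_comm k j (contDiff_f (m := 2) hf)]
      have e0 : dzb j f =ᶠ[𝓝 z] fun _ => 0 := by
        filter_upwards [hev] with y hy using dzb_holo hy j
      rw [C2.dz_congr k e0, C2.dz_const]
    rw [this, map_zero]
  have h3 : dz j (fun y => conj (f y)) z = 0 := by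
    rw [C2.dz_conj j hfd, dzb_holo hf, map_zero]
  rw [C2.dz_mul j (hfd.fun_mul (hcdf.fun_sub (hc.fun_mul hdρ))) hE,
    C2.dz_mul j hfd (hcdf.fun_sub (hc.fun_mul hdρ)), C2.dz_sub j hcdf (hc.fun_mul hdρ),
    C2.dz_mul j hc hdρ, h1, h2, h3]
  unfold Dc nh
  rw [map_sub, map_mul, ← C2.dzb_real k hρ', C2.cHess_apply]
  have hn : ((‖f z‖ ^ 2 * Real.exp (-ρ z) : ℝ) : ℂ) = f z * conj (f z) * (Real.exp (-ρ z) : ℂ) := by
    rw [Complex.mul_conj]
    push_cast [Complex.normSq_eq_norm_sq]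
    ring
  rw [hn]
  push_cast
  ring

/-- the complex Hessian of `log (|f|² e^{-ρ} + δ)` -/
theorem cHess_lg (hf : AnalyticAt ℂ f z) (hρ : ContDiffAt ℝ 2 ρ z) (hδ : 0 < δ) :
    cHess (lg f ρ δ) z = Pm f ρ δ z - ((nh f ρ z / (nh f ρ z + δ) : ℝ) : ℂ) • cHess ρ z := by
  have hρ' : DifferentiableAt ℝ ρ z := hρ.differentiableAt (by norm_num)
  have hn : 0 < nh f ρ z + δ := by have := nh_nonneg f ρ z; linarith
  have hn2 : ContDiffAt ℝ 2 (nh f ρ) z := contDiff_nh (m := 2) hf hρ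
  have hu : ContDiffAt ℝ 2 (fun y => nh f ρ y + δ) z := hn2.add contDiffAt_const
  have ha : cHess (fun y => nh f ρ y + δ) z = cHess (nh f ρ) z := by
    rw [C2.cHess_add hn2 contDiffAt_const, C2.cHess_const, add_zero]
  have hd : DifferentiableAt ℝ (nh f ρ) z := hn2.differentiableAt (by norm_num)
  have hz : ∀ j, dz j (fun y => ((nh f ρ y + δ : ℝ) : ℂ)) z = dz j (fun y => (nh f ρ y : ℂ)) z := by
    intro j
    have : (fun y => ((nh f ρ y + δ : ℝ) : ℂ)) = fun y => (nh f ρ y : ℂ) + (δ : ℂ) := by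
      funext y; push_cast; ring
    rw [this, C2.dz_add j (C2.differentiableAt_ofReal hd) (differentiableAt_const _), C2.dz_const,
      add_zero]
  have hzb : ∀ j, dzb j (fun y => ((nh f ρ y + δ : ℝ) : ℂ)) z =
      dzb j (fun y => (nh f ρ y : ℂ)) z := by
    intro j
    have : (fun y => ((nh f ρ y + δ : ℝ) : ℂ)) = fun y => (nh f ρ y : ℂ) + (δ : ℂ) := by
      funext y; push_cast; ring
    rw [this, C2.dzb_add j (C2.differentiableAt_ofReal hd) (differentiableAt_const _),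
      C2.dzb_const, add_zero]
  ext j k
  have hlg : lg f ρ δ = fun y => Real.log (nh f ρ y + δ) := rfl
  rw [hlg, C2.cHess_log hu hn, ha, hz, hzb, dz_nh hf hρ', dzb_nh hf hρ', cHess_nh hf hρ]
  have hne : ((nh f ρ z : ℂ) + δ) ≠ 0 := by
    have : ((nh f ρ z + δ : ℝ) : ℂ) ≠ 0 := by exact_mod_cast hn.ne'
    push_cast at this; exact this
  have hnn : (nh f ρ z : ℂ) = f z * conj (f z) * (Real.exp (-ρ z) : ℂ) := by
    rw [Complex.mul_conj]
    unfold nh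
    push_cast [Complex.normSq_eq_norm_sq]
    ring
  simp only [Pm, cf, Matrix.sub_apply, Matrix.smul_apply, Matrix.vecMulVec_apply, smul_eq_mul,
    Pi.star_apply, RCLike.star_def]
  push_cast
  rw [← Complex.ofReal_neg, ← Complex.ofReal_exp]
  field_simp
  linear_combination (-(Dc f ρ z j * conj (Dc f ρ z k) * (Real.exp (-ρ z) : ℂ))) * hnn * (-1)

end Vale.Agent.P301.H98
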