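import Vale.Agent.P301.H98.LocG
import Vale.Agent.P301.H599.Iter
import Vale.Agent.P272.K.INT.Global

/-! Sections of line bundles: `log (|s|² + δ)` and the forms `c + i∂∂̄ log (|s|² + δ)`. -/

open scoped Manifold ContDiff ComplexOrder ComplexConjugate Topology ENNReal
open MeasureTheory Set Filter Metric

noncomputable section

namespace Vale.Agent.P301.H98

open Vale.Agent.P272.K Vale.Agent.P301.H599

variable {d : ℕ} {X : Type} [TopologicalSpace X] [ChartedSpace (Cm d) X] {ι : Type}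

/-- `s` is a holomorphic section of `L` -/
structure IsSection (L : LineBundle d X ι) (s : ι → X → ℂ) : Prop where
  holo : ∀ i (e : Chart d X) x, At e x → x ∈ L.U i →
    AnalyticAt ℂ (fun z => s i (e.symm z)) (e x)
  change : ∀ i j x, x ∈ L.U i → x ∈ L.U j → s i x = L.g i j x * s j x

/-- `|s|²` -/
def nrm (L : LineBundle d X ι) (ρ : ι → X → ℝ) (s : ι → X → ℂ) (x : X) : ℝ :=
  ‖s (L.cover x).choose x‖ ^ 2 * Real.exp (-ρ (L.cover x).choose x)

/-- `log (|s|² + δ)` -/
def ul (L : LineBundle d X ι) (ρ : ι → X → ℝ) (s : ι → X → ℂ) (δ : ℝ) (x : X) : ℝ :=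
  Real.log (nrm L ρ s x + δ)

variable {L : LineBundle d X ι} {ρ : ι → X → ℝ} {s : ι → X → ℂ}

lemma nrm_nonneg (x : X) : 0 ≤ nrm L ρ s x := by unfold nrm; positivity

lemma nrm_eq (hρ : IsMetric L ρ) (hs : IsSection L s) {i : ι} {x : X} (hi : x ∈ L.U i) :
    nrm L ρ s x = ‖s i x‖ ^ 2 * Real.exp (-ρ i x) := by
  set j := (L.cover x).choose with hj
  have hjx : x ∈ L.U j := (L.cover x).choose_spec
  unfold nrm
  rw [← hj, hs.change i j x hi hjx, hρ.change i j x hi hjx]
  have hg : L.g i j x ≠ 0 := L.ne_zero i j x hi hjx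
  rw [neg_add, Real.exp_add, Real.exp_neg (Real.log _), Real.exp_log (by positivity), norm_mul]
  field_simp

variable {e : Chart d X} {x : X}

lemma ev_mem (hx : At e x) {i : ι} (hi : x ∈ L.U i) :
    ∀ᶠ z in 𝓝 (e x), z ∈ e.target ∧ e.symm z ∈ L.U i := by
  have hopen : ∀ᶠ z in 𝓝 (e x), e.symm z ∈ L.U i := by
    have hc : ContinuousAt e.symm (e x) := e.continuousAt_symm hx.mem_target
    refine hc.eventually (p := fun y => y ∈ L.U i) ?_
    rw [hx.left_inv]
    exact (L.isOpen i).mem_nhds hi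
  filter_upwards [hx.nhds_target, hopen] with z h1 h2 using ⟨h1, h2⟩

lemma nrm_symm (hρ : IsMetric L ρ) (hs : IsSection L s) {i : ι} {z : Cm d}
    (hz : e.symm z ∈ L.U i) :
    nrm L ρ s (e.symm z) = nh (fun z => s i (e.symm z)) (fun z => ρ i (e.symm z)) z :=
  nrm_eq hρ hs hz

lemma ul_symm (hρ : IsMetric L ρ) (hs : IsSection L s) {i : ι} {z : Cm d} {δ : ℝ}
    (hz : e.symm z ∈ L.U i) :
    ul L ρ s δ (e.symm z) = lg (fun z => s i (e.symm z)) (fun z => ρ i (e.symm z)) δ z := by
  unfold ul lg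
  rw [nrm_symm hρ hs hz]

lemma smooth_ul (hρ : IsMetric L ρ) (hs : IsSection L s) {δ : ℝ} (hδ : 0 < δ) :
    Smooth (d := d) (ul L ρ s δ) := by
  intro e x hx
  obtain ⟨i, hi⟩ := L.cover x
  have h1 : ContDiffAt ℝ ∞ (lg (fun z => s i (e.symm z)) (fun z => ρ i (e.symm z)) δ) (e x) :=
    contDiff_lg (m := ⊤) (hs.holo i e x hx hi) (hρ.smooth i e x hx hi) hδ
  refine h1.congr_of_eventuallyEq ?_
  filter_upwards [ev_mem hx hi] with z hz using ul_symm hρ hs hz.2

lemma ddc_ul (hρ : IsMetric L ρ) (hs : IsSection L s) {δ : ℝ} (hδ : 0 < δ) {i : ι} (hx : At e x)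
    (hi : x ∈ L.U i) : ddc (ul L ρ s δ) e (e x) =
      Pm (fun z => s i (e.symm z)) (fun z => ρ i (e.symm z)) δ (e x) -
        ((nh (fun z => s i (e.symm z)) (fun z => ρ i (e.symm z)) (e x) /
          (nh (fun z => s i (e.symm z)) (fun z => ρ i (e.symm z)) (e x) + δ) : ℝ) : ℂ) •
          ddc (ρ i) e (e x) := by
  unfold ddc
  have h1 : (fun y => ul L ρ s δ (e.symm y)) =ᶠ[𝓝 (e x)]
      lg (fun z => s i (e.symm z)) (fun z => ρ i (e.symm z)) δ := by
    filter_upwards [ev_mem hx hi] with z hz using ul_symm hρ hs hz.2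
  rw [C2.cHess_congr h1]
  exact cHess_lg (hs.holo i e x hx hi) ((hρ.smooth i e x hx hi).of_le (by norm_cast)) hδ

/-- `c + i∂∂̄ log (|s|² + δ)` -/
def Tf (L : LineBundle d X ι) (ρ : ι → X → ℝ) (s : ι → X → ℂ) (δ : ℝ) :
    Chart d X → Cm d → Matrix (Fin d) (Fin d) ℂ :=
  fun e z => curvature L ρ e z + ddc (ul L ρ s δ) e z

variable [IsManifold 𝓘(ℂ, Cm d) ω X]

lemma Tf_eq (hρ : IsMetric L ρ) (hs : IsSection L s) {δ : ℝ} (hδ : 0 < δ) {i : ι} (hx : At e x)
    (hi : x ∈ L.U i) : Tf L ρ s δ e (e x) =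
      ((al (fun z => s i (e.symm z)) (fun z => ρ i (e.symm z)) δ (e x) : ℝ) : ℂ) •
          cHess (fun z => ρ i (e.symm z)) (e x) +
      Pm (fun z => s i (e.symm z)) (fun z => ρ i (e.symm z)) δ (e x) := by
  unfold Tf
  rw [ddc_ul hρ hs hδ hx hi, curvature_eq hρ hx hi]
  have hn := nh_nonneg (fun z => s i (e.symm z)) (fun z => ρ i (e.symm z)) (e x)
  have e1 : al (fun z => s i (e.symm z)) (fun z => ρ i (e.symm z)) δ (e x) =
      1 - nh (fun z => s i (e.symm z)) (fun z => ρ i (e.symm z)) (e x) /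
          (nh (fun z => s i (e.symm z)) (fun z => ρ i (e.symm z)) (e x) + δ) := by
    unfold al
    have : nh (fun z => s i (e.symm z)) (fun z => ρ i (e.symm z)) (e x) + δ ≠ 0 := by positivity
    field_simp
    ring
  rw [e1]
  unfold ddc
  push_cast
  rw [sub_smul, one_smul]
  abel

/-- smooth closed Hermitian forms -/
structure RForm (a : Chart d X → Cm d → Matrix (Fin d) (Fin d) ℂ) : Prop where
  closed : INT.IsClosedForm a
  herm : ∀ e x, At e x → (a e (e x)).IsHermitian

lemma rform_curvature (hρ : IsMetric L ρ) : RForm (curvature L ρ) where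
  closed :=
    { smooth := fun e x h i j => by
        obtain ⟨k, hk⟩ := L.cover x
        have h1 : ContDiffAt ℝ ∞ (fun z => cHess (fun y => ρ k (e.symm y)) z i j) (e x) :=
          INT.smooth_cHess (hρ.smooth k e x h hk) i j
        refine h1.congr_of_eventuallyEq ?_
        filter_upwards [curvature_ev hρ h hk] with z hz
        rw [hz]; rfl
      form := isForm_curvature hρ
      closed := fun e x h i k l => by
        obtain ⟨m, hm⟩ := L.cover x
        have h1 : ∀ p q, (fun z => curvature L ρ e z p q) =ᶠ[𝓝 (e x)]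
            fun z => cHess (fun y => ρ m (e.symm y)) z p q := by
          intro p q
          filter_upwards [curvature_ev hρ h hm] with z hz
          rw [hz]; rfl
        rw [C2.dz_congr i (h1 k l), C2.dz_congr k (h1 i l)]
        exact INT.cHess_closed (hρ.smooth m e x h hm) i k l }
  herm := fun e x h => by
    obtain ⟨m, hm⟩ := L.cover x
    rw [curvature_eq hρ h hm]
    exact C2.cHess_isHermitian ((hρ.smooth m e x h hm).of_le (by norm_cast))

lemma rform_ddc {u : X → ℝ} (hu : Smooth (d := d) u) : RForm (ddc (d := d) u) where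
  closed := INT.isClosedForm_cHess hu
  herm := fun e x h => C2.cHess_isHermitian ((hu e x h).of_le (by norm_cast))

lemma RForm.add {a b : Chart d X → Cm d → Matrix (Fin d) (Fin d) ℂ} (ha : RForm a) (hb : RForm b) :
    RForm fun e z => a e z + b e z where
  closed := ha.closed.add hb.closed
  herm := fun e x h => (ha.herm e x h).add (hb.herm e x h)

lemma rform_Tf (hρ : IsMetric L ρ) (hs : IsSection L s) {δ : ℝ} (hδ : 0 < δ) :
    RForm (Tf L ρ s δ) := (rform_curvature hρ).add (rform_ddc (smooth_ul hρ hs hδ))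

end Vale.Agent.P301.H98
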