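import Vale.Agent.P301.H98.Dir2

/-! The local estimate: all directions. -/

open scoped ContDiff ComplexOrder ComplexConjugate Topology ENNReal
open MeasureTheory Set Filter Metric

noncomputable section

namespace Vale.Agent.P301.H98

open Vale.Agent.P272.K

variable {d : ℕ}

/-- some combination of `f₁`, `f₂` near `a` is not identically zero and does not change in the
direction `v` -/
def Slice (f₁ f₂ : Cm d → ℂ) (a v : Cm d) : Prop :=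
  ∃ A B r : Cm d → ℂ, AnalyticAt ℂ A a ∧ AnalyticAt ℂ B a ∧ AnalyticAt ℂ r a ∧
    (∀ᶠ z in 𝓝 a, r z = A z * f₁ z + B z * f₂ z) ∧ (¬ ∀ᶠ z in 𝓝 a, r z = 0) ∧
    ∀ᶠ z in 𝓝 a, dv v r z = 0

/-- everything needed on `ball a (3R)` -/
def Good (f₁ f₂ : Cm d → ℂ) (ρ₁ ρ₂ : Cm d → ℝ) (a v : Cm d) (R : ℝ) : Prop :=
  Loc2 f₁ f₂ ρ₁ ρ₂ a R ∧ ∃ A B r : Cm d → ℂ, (∀ z ∈ ball a (3 * R), ContinuousAt A z) ∧
    (∀ z ∈ ball a (3 * R), ContinuousAt B z) ∧ (∀ z ∈ ball a (3 * R), AnalyticAt ℂ r z) ∧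
    (∀ z ∈ ball a (3 * R), r z = A z * f₁ z + B z * f₂ z) ∧
    (∀ z ∈ ball a (3 * R), dv v r z = 0) ∧ ∀ᵐ z ∂(volume.restrict (ball a (3 * R))), r z ≠ 0

variable {f₁ f₂ : Cm d → ℂ} {ρ₁ ρ₂ : Cm d → ℝ} {a : Cm d} {R : ℝ}

lemma Good.mono {v : Cm d} (h : Good f₁ f₂ ρ₁ ρ₂ a v R) {R' : ℝ} (h0 : 0 < R') (hR' : R' ≤ R) :
    Good f₁ f₂ ρ₁ ρ₂ a v R' := by
  obtain ⟨hl, A, B, r, hA, hB, hr, hrel, hrv, hrne⟩ := h
  have hs : ball a (3 * R') ⊆ ball a (3 * R) := ball_subset_ball (by linarith)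
  exact ⟨hl.mono h0 hR', A, B, r, fun z hz => hA z (hs hz), fun z hz => hB z (hs hz),
    fun z hz => hr z (hs hz), fun z hz => hrel z (hs hz), fun z hz => hrv z (hs hz),
    ae_restrict_of_ae_restrict_of_subset hs hrne⟩

lemma exists_ball {p : Cm d → Prop} (h : ∀ᶠ z in 𝓝 a, p z) :
    ∃ R > 0, ∀ z ∈ ball a (3 * R), p z := by
  obtain ⟨r, hr, h1⟩ := Metric.eventually_nhds_iff_ball.1 h
  exact ⟨r / 3, by positivity, fun z hz => h1 z (by rwa [mul_div_cancel₀ _ (by norm_num)] at hz)⟩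

lemma exists_good {v : Cm d} (hf1 : AnalyticAt ℂ f₁ a) (hf2 : AnalyticAt ℂ f₂ a)
    (hρ₁ : ∀ᶠ z in 𝓝 a, ContDiffAt ℝ ∞ ρ₁ z) (hρ₂ : ∀ᶠ z in 𝓝 a, ContDiffAt ℝ ∞ ρ₂ z)
    (hne : ¬ ∀ᶠ z in 𝓝 a, f₁ z = 0) (hsl : Slice f₁ f₂ a v) :
    ∃ R > 0, Good f₁ f₂ ρ₁ ρ₂ a v R := by
  obtain ⟨A, B, r, hA, hB, hr, hrel, hrne, hrv⟩ := hsl
  obtain ⟨R₁, hR₁, h1⟩ := exists_ball ((((((hf1.eventually_analyticAt.and
    hf2.eventually_analyticAt).and hρ₁).and hρ₂).and (hA.eventually_analyticAt.and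
    hB.eventually_analyticAt)).and hr.eventually_analyticAt).and (hrel.and hrv))
  obtain ⟨R₂, hR₂, hi, hn⟩ := exists_log_integrable hf1 hne
  obtain ⟨R₃, hR₃, -, hn3⟩ := exists_log_integrable hr hrne
  set R := min R₁ (min (R₂ / 3) (R₃ / 3)) with hR
  have hR0 : 0 < R := by
    rw [hR]; exact lt_min hR₁ (lt_min (by positivity) (by positivity))
  have s1 : ball a (3 * R) ⊆ ball a (3 * R₁) :=
    ball_subset_ball (by have := min_le_left R₁ (min (R₂ / 3) (R₃ / 3)); rw [← hR] at this; linarith)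
  have s2 : ball a (3 * R) ⊆ ball a R₂ := ball_subset_ball (by
    have := (min_le_right R₁ (min (R₂ / 3) (R₃ / 3))).trans (min_le_left _ _)
    rw [← hR] at this; linarith)
  have s3 : ball a (3 * R) ⊆ ball a R₃ := ball_subset_ball (by
    have := (min_le_right R₁ (min (R₂ / 3) (R₃ / 3))).trans (min_le_right _ _)
    rw [← hR] at this; linarith)
  have h2 : ∀ z ∈ ball a (3 * R), (AnalyticAt ℂ f₁ z ∧ AnalyticAt ℂ f₂ z ∧ ContDiffAt ℝ ∞ ρ₁ z ∧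
      ContDiffAt ℝ ∞ ρ₂ z) ∧ (AnalyticAt ℂ A z ∧ AnalyticAt ℂ B z ∧ AnalyticAt ℂ r z) ∧
      r z = A z * f₁ z + B z * f₂ z ∧ dv v r z = 0 := by
    intro z hz
    obtain ⟨⟨⟨⟨⟨⟨a1, a2⟩, a3⟩, a4⟩, a5, a6⟩, a7⟩, a8, a9⟩ := h1 z (s1 hz)
    exact ⟨⟨a1, a2, a3, a4⟩, ⟨a5, a6, a7⟩, a8, a9⟩
  exact ⟨R, hR0, ⟨hR0, fun z hz => (h2 z hz).1.1, fun z hz => (h2 z hz).1.2.1,
    fun z hz => (h2 z hz).1.2.2.1, fun z hz => (h2 z hz).1.2.2.2, hi.mono_set s2,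
    ae_restrict_of_ae_restrict_of_subset s2 hn⟩, A, B, r,
    fun z hz => (h2 z hz).2.1.1.continuousAt, fun z hz => (h2 z hz).2.1.2.1.continuousAt,
    fun z hz => (h2 z hz).2.1.2.2, fun z hz => (h2 z hz).2.2.1,
    fun z hz => (h2 z hz).2.2.2, ae_restrict_of_ae_restrict_of_subset s3 hn3⟩

/-- a direction is generic as soon as `f₁` does not vanish at some point of the line -/
lemma generic {f : Cm d → ℂ} {r₀ : ℝ} {v : Cm d} (hf : ∀ z ∈ ball a r₀, AnalyticAt ℂ f z)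
    (hr₀ : 0 < r₀) (hv : a + v ∈ ball a r₀) (h0 : f (a + v) ≠ 0) :
    ¬ ∀ᶠ ζ in 𝓝 (0:ℂ), f (a + ζ • v) = 0 := by
  intro hcon
  set U : Set ℂ := (fun ζ : ℂ => a + ζ • v) ⁻¹' ball a r₀ with hU
  have hUeq : Convex ℝ U := by
    intro x hx y hy s t hs ht hst
    simp only [hU, mem_preimage] at hx hy ⊢
    have h1 := (convex_ball a r₀) hx hy hs ht hst
    have h2 : a + (s • x + t • y) • v = s • (a + x • v) + t • (a + y • v) := by
      have : a = s • a + t • a := by rw [← add_smul, hst, one_smul]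
      conv_lhs => rw [this]
      rw [add_smul, smul_add, smul_add]
      simp only [smul_smul, ← Complex.coe_smul]
      abel
    rw [h2]; exact h1
  have hpre : IsPreconnected U := hUeq.isPreconnected
  have han : AnalyticOnNhd ℂ (fun ζ : ℂ => f (a + ζ • v)) U := by
    intro ζ hζ
    refine AnalyticAt.fun_comp (g := f) (hf _ hζ) ?_
    exact analyticAt_const.add (analyticAt_id.smul analyticAt_const)
  have h0U : (0:ℂ) ∈ U := by simp [hU, hr₀]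
  have h1U : (1:ℂ) ∈ U := by simp only [hU, mem_preimage, one_smul]; exact hv
  have := han.eqOn_zero_of_preconnected_of_eventuallyEq_zero hpre h0U hcon h1U
  simp only [one_smul, Pi.zero_apply] at this
  exact h0 this

/-- the local estimate -/
theorem exists_local (hf1 : AnalyticAt ℂ f₁ a) (hf2 : AnalyticAt ℂ f₂ a)
    (hρ₁ : ∀ᶠ z in 𝓝 a, ContDiffAt ℝ ∞ ρ₁ z) (hρ₂ : ∀ᶠ z in 𝓝 a, ContDiffAt ℝ ∞ ρ₂ z)
    (hne : ¬ ∀ᶠ z in 𝓝 a, f₁ z = 0)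
    (hsl : ∀ v, (¬ ∀ᶠ ζ in 𝓝 (0:ℂ), f₁ (a + ζ • v) = 0) → Slice f₁ f₂ a v) :
    ∃ R > 0, Loc2 f₁ f₂ ρ₁ ρ₂ a R ∧ ∀ η : ℝ, 0 < η → ∀ᶠ δ' in 𝓝[>] (0:ℝ), ∀ᶠ δ in 𝓝[>] (0:ℝ),
      ∫ z in ball a R, al f₂ ρ₂ δ' z * (cf f₁ ρ₁ δ z * ∑ k, ‖Dc f₁ ρ₁ z k‖ ^ 2) ≤ η := by
  obtain ⟨r₀, hr₀, hra⟩ := Metric.eventually_nhds_iff_ball.1 hf1.eventually_analyticAt
  obtain ⟨w₀, hw₀, hfw⟩ : ∃ w₀ ∈ ball a r₀, f₁ w₀ ≠ 0 := by
    by_contra hcon
    push Not at hcon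
    exact hne (Filter.mem_of_superset (ball_mem_nhds a hr₀) hcon)
  set v₀ : Cm d := w₀ - a with hv₀
  have hw : ∀ᶠ w in 𝓝 w₀, w ∈ ball a r₀ ∧ f₁ w ≠ 0 := by
    filter_upwards [isOpen_ball.mem_nhds hw₀, (hra w₀ hw₀).continuousAt.eventually_ne hfw]
      with w h1 h2 using ⟨h1, h2⟩
  obtain ⟨t, ht, hwt⟩ : ∃ t : ℝ, 0 < t ∧ ∀ k : Fin d,
      w₀ + (t : ℂ) • (Pi.single k 1 : Cm d) ∈ ball a r₀ ∧
        f₁ (w₀ + (t : ℂ) • (Pi.single k 1 : Cm d)) ≠ 0 := by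
    have h1 : ∀ k : Fin d, ∀ᶠ t : ℝ in 𝓝[>] 0, w₀ + (t : ℂ) • (Pi.single k 1 : Cm d) ∈ ball a r₀ ∧
        f₁ (w₀ + (t : ℂ) • (Pi.single k 1 : Cm d)) ≠ 0 := by
      intro k
      have hc : Continuous fun t : ℝ => w₀ + (t : ℂ) • (Pi.single k 1 : Cm d) := by fun_prop
      have h2 : Tendsto (fun t : ℝ => w₀ + (t : ℂ) • (Pi.single k 1 : Cm d)) (𝓝 0) (𝓝 w₀) := by
        have := hc.tendsto 0
        simpa using this
      exact (h2.mono_left nhdsWithin_le_nhds).eventually hw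
    have h3 := (eventually_all.2 h1).and self_mem_nhdsWithin
    obtain ⟨t, h4, h5⟩ := h3.exists
    exact ⟨t, h5, h4⟩
  set V : Option (Fin d) → Cm d := fun o => o.elim v₀ fun k => v₀ + (t : ℂ) • (Pi.single k 1 : Cm d)
    with hV
  have hgen : ∀ o, ¬ ∀ᶠ ζ in 𝓝 (0:ℂ), f₁ (a + ζ • V o) = 0 := by
    intro o
    cases o with
    | none =>
      refine generic hra hr₀ ?_ ?_
      · simpa [hV, hv₀] using hw₀
      · simpa [hV, hv₀] using hfw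
    | some k =>
      have e : a + V (some k) = w₀ + (t : ℂ) • (Pi.single k 1 : Cm d) := by
        simp only [hV, hv₀, Option.elim_some]; abel
      refine generic hra hr₀ ?_ ?_
      · rw [e]; exact (hwt k).1
      · rw [e]; exact (hwt k).2
  choose Rv hRv hgood using fun o => exists_good hf1 hf2 hρ₁ hρ₂ hne (hsl (V o) (hgen o))
  set R := (Finset.univ : Finset (Option (Fin d))).inf' Finset.univ_nonempty Rv with hRdef
  have hR0 : 0 < R := by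
    rw [hRdef, Finset.lt_inf'_iff]
    intro o _; exact hRv o
  have hRle : ∀ o, R ≤ Rv o := fun o => Finset.inf'_le _ (Finset.mem_univ o)
  have hg : ∀ o, Good f₁ f₂ ρ₁ ρ₂ a (V o) R := fun o => (hgood o).mono hR0 (hRle o)
  have hL : Loc2 f₁ f₂ ρ₁ ρ₂ a R := (hg none).1
  refine ⟨R, hR0, hL, fun η hη => ?_⟩
  set η' : ℝ := η * t ^ 2 / (4 * ((d : ℝ) + 1)) with hη'
  have hη'0 : 0 < η' := by positivity
  have hdir : ∀ o, ∀ᶠ δ' in 𝓝[>] (0:ℝ), ∀ᶠ δ in 𝓝[>] (0:ℝ),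
      ∫ z in ball a R, al f₂ ρ₂ δ' z * gv f₁ ρ₁ δ (V o) z ≤ η' := by
    intro o
    obtain ⟨hl, A, B, r, hA, hB, hr, hrel, hrv, hrne⟩ := hg o
    exact dir_est hl hA hB hr hrel hrv hrne η' hη'0
  filter_upwards [eventually_all.2 hdir, self_mem_nhdsWithin] with δ' h1 hδ'
  filter_upwards [eventually_all.2 h1, self_mem_nhdsWithin] with δ h2 hδ
  have hδ'0 : 0 < δ' := hδ'
  have hδ0 : 0 < δ := hδ
  have hK : IsCompact (closedBall a (2 * R)) := isCompact_closedBall a _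
  have hsub := hL.sub
  have hsub' : ball a R ⊆ closedBall a (2 * R) :=
    ball_subset_closedBall.trans (closedBall_subset_closedBall (by linarith))
  have iOn : ∀ {F : Cm d → ℝ}, (∀ z ∈ ball a (3 * R), ContinuousAt F z) →
      IntegrableOn F (ball a R) := fun hF =>
    (ContinuousOn.integrableOn_compact hK fun z hz =>
      (hF z (hsub hz)).continuousWithinAt).mono_set hsub'
  have cg : ∀ v, ∀ z ∈ ball a (3 * R),
      ContinuousAt (fun z => al f₂ ρ₂ δ' z * gv f₁ ρ₁ δ v z) z := fun v z hz =>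
    (continuousAt_al (hL.f2 z hz) (hL.r2 z hz) hδ'0).mul
      (continuousAt_gv (hL.f1 z hz) (hL.r1 z hz) hδ0 v)
  have cD : ∀ z ∈ ball a (3 * R), ContinuousAt
      (fun z => al f₂ ρ₂ δ' z * (cf f₁ ρ₁ δ z * ∑ k, ‖Dc f₁ ρ₁ z k‖ ^ 2)) z := fun z hz =>
    (continuousAt_al (hL.f2 z hz) (hL.r2 z hz) hδ'0).mul
      ((continuousAt_cf (hL.f1 z hz) (hL.r1 z hz) hδ0).mul
        (tendsto_finsetSum _ fun k _ => ((continuousAt_Dc (hL.f1 z hz) (hL.r1 z hz) k).norm.pow 2)))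
  -- pointwise
  have hpt : ∀ z, al f₂ ρ₂ δ' z * (cf f₁ ρ₁ δ z * ∑ k, ‖Dc f₁ ρ₁ z k‖ ^ 2) ≤
      ∑ k : Fin d, (2 / t ^ 2) * (al f₂ ρ₂ δ' z * gv f₁ ρ₁ δ (V (some k)) z +
        al f₂ ρ₂ δ' z * gv f₁ ρ₁ δ (V none) z) := by
    intro z
    have a0 := al_nonneg (f := f₂) (ρ := ρ₂) hδ'0.le z
    have c0 := cf_nonneg (f := f₁) (ρ := ρ₁) hδ0.le z
    rw [Finset.mul_sum, Finset.mul_sum]
    refine Finset.sum_le_sum fun k _ => ?_
    set D := Dc f₁ ρ₁ z with hD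
    set p := ∑ j, V (some k) j * D j with hp
    set q := ∑ j, V none j * D j with hq
    have hpq : (t : ℂ) * D k = p - q := by
      rw [hp, hq, ← Finset.sum_sub_distrib]
      have : ∀ j, V (some k) j * D j - V none j * D j = (t : ℂ) * ((Pi.single k 1 : Cm d) j * D j) := by
        intro j
        simp only [hV, Option.elim_some, Option.elim_none, Pi.add_apply, Pi.smul_apply, smul_eq_mul]
        ring
      rw [Finset.sum_congr rfl fun j _ => this j, ← Finset.mul_sum]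
      congr 1
      rw [Finset.sum_eq_single k]
      · simp
      · intro j _ hj; simp [hj]
      · simp
    have h3 : t ^ 2 * ‖D k‖ ^ 2 ≤ 2 * (‖p‖ ^ 2 + ‖q‖ ^ 2) := by
      have h4 : t * ‖D k‖ = ‖p - q‖ := by
        rw [← hpq, norm_mul, Complex.norm_real, Real.norm_eq_abs, abs_of_pos ht]
      have h5 : ‖p - q‖ ≤ ‖p‖ + ‖q‖ := norm_sub_le _ _
      have h6 : (t * ‖D k‖) ^ 2 ≤ (‖p‖ + ‖q‖) ^ 2 := by
        rw [h4]; gcongr
      nlinarith [sq_nonneg (‖p‖ - ‖q‖)]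
    have h7 : ‖D k‖ ^ 2 ≤ (2 / t ^ 2) * (‖p‖ ^ 2 + ‖q‖ ^ 2) := by
      rw [div_mul_eq_mul_div, le_div_iff₀ (by positivity)]
      linarith
    have h8 : al f₂ ρ₂ δ' z * (cf f₁ ρ₁ δ z * ‖D k‖ ^ 2) ≤
        al f₂ ρ₂ δ' z * (cf f₁ ρ₁ δ z * ((2 / t ^ 2) * (‖p‖ ^ 2 + ‖q‖ ^ 2))) := by
      gcongr
    refine h8.trans (le_of_eq ?_)
    simp only [gv]
    ring
  have hmono : ∫ z in ball a R, al f₂ ρ₂ δ' z * (cf f₁ ρ₁ δ z * ∑ k, ‖Dc f₁ ρ₁ z k‖ ^ 2) ≤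
      ∫ z in ball a R, ∑ k : Fin d, (2 / t ^ 2) * (al f₂ ρ₂ δ' z * gv f₁ ρ₁ δ (V (some k)) z +
        al f₂ ρ₂ δ' z * gv f₁ ρ₁ δ (V none) z) := by
    refine integral_mono (iOn cD) ?_ hpt
    exact integrable_finsetSum _ fun k _ => ((iOn (cg _)).add (iOn (cg _))).const_mul _
  refine hmono.trans ?_
  have hik : ∀ k : Fin d, Integrable (fun z => (2 / t ^ 2) *
      (al f₂ ρ₂ δ' z * gv f₁ ρ₁ δ (V (some k)) z + al f₂ ρ₂ δ' z * gv f₁ ρ₁ δ (V none) z))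
      (volume.restrict (ball a R)) := fun k => ((iOn (cg _)).add (iOn (cg _))).const_mul _
  rw [integral_finsetSum _ fun k _ => hik k]
  have h9 : ∀ k : Fin d, ∫ z in ball a R, (2 / t ^ 2) * (al f₂ ρ₂ δ' z * gv f₁ ρ₁ δ (V (some k)) z +
        al f₂ ρ₂ δ' z * gv f₁ ρ₁ δ (V none) z) ≤ (2 / t ^ 2) * (η' + η') := by
    intro k
    rw [integral_const_mul, integral_add (iOn (cg _)) (iOn (cg _))]
    exact mul_le_mul_of_nonneg_left (add_le_add (h2 (some k)) (h2 none)) (by positivity)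
  refine (Finset.sum_le_sum fun k _ => h9 k).trans ?_
  rw [Finset.sum_const, Finset.card_univ, Fintype.card_fin, nsmul_eq_mul, hη']
  have e : (d : ℝ) * (2 / t ^ 2 * (η * t ^ 2 / (4 * ((d:ℝ) + 1)) + η * t ^ 2 / (4 * ((d:ℝ) + 1)))) =
      η * ((d : ℝ) / ((d:ℝ) + 1)) := by
    field_simp
    ring
  rw [e]
  have h10 : (d : ℝ) / ((d:ℝ) + 1) ≤ 1 := by
    rw [div_le_one (by positivity)]; linarith
  calc η * ((d : ℝ) / ((d:ℝ) + 1)) ≤ η * 1 := mul_le_mul_of_nonneg_left h10 hη.le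
    _ = η := mul_one _

end Vale.Agent.P301.H98
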